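import Vale.Agent.P284.H731.K6

/-!
# P284, theorem K for all groups, row K6 (helper731): pigeonhole for Monge-Ampère solutions on the
covering
-/

open scoped Manifold ContDiff Topology Pointwise ComplexConjugate ComplexOrder
open Filter Set Metric MeasureTheory

noncomputable section

namespace Vale.Agent.P284.H731.K6

open Vale.Agent.P272.K Vale.Agent.P284.H248 Vale.Agent.P284.H894 Vale.Agent.P284.H894.G
  Vale.Agent.P284.H894.V Vale.Agent.P284.H894.W Vale.Agent.P284.H913.V Vale.Agent.P284.H409.A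
  Vale.Agent.P284.H409.K

/-- Estimates for solutions on the covering: `φ ≤ 0`, `w + ∂∂̄φ > 0`, few cells with `φ ≤ -1`,
`φ ≤ -A + B (1 + log A)` on the cell `1`. -/
def KACY {n : ℕ} {Γ : Type} [Group Γ] (C : Coc n Γ) (K : KM C) (a₀ : C.I) (z₀ : Cm n) (ρ : ℝ) :
    Prop :=
  ∃ B : ℝ, 1 ≤ B ∧ ∀ A : ℝ, 1 ≤ A → ∃ φ : Γ → C.I → Cm n → ℝ, NF C K φ ∧
    {γ : Γ | ∀ z ∈ ball z₀ ρ, φ γ a₀ z ≤ -1}.Finite ∧
    (Set.ncard {γ : Γ | ∀ z ∈ ball z₀ ρ, φ γ a₀ z ≤ -1} : ℝ) ≤ B * A ^ n ∧
    ∀ z ∈ ball z₀ ρ, φ 1 a₀ z ≤ -A + B * (1 + Real.log A)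

/-- **K6** for an arbitrary group -/
theorem k6c {n : ℕ} {Γ : Type} [Group Γ] (C : Coc n Γ) (K : KM C) (a₀ : C.I) (z₀ : Cm n) (ρ : ℝ)
    (hρ : 0 < ρ) (h : KACY C K a₀ z₀ ρ) (S : Set Γ) (hS : S.Finite) (hexp : ¬ Subexp S) :
    Drop C K a₀ z₀ ρ S := by
  classical
  obtain ⟨B, hB1, hB⟩ := h
  -- below the level `K₀` nothing is claimed
  set K₀ : ℝ := 1 + 3 * B with hK₀
  obtain ⟨t, ht, θ, hθ0, hθ1, hK⟩ := H427.firstDrop hS hexp (2 * n) (K₀ + 1)
    (J := {φ : Γ → C.I → Cm n → ℝ // NF C K φ})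
    (fun φ x g => x ≤ K₀ ∨ ∀ z ∈ ball z₀ ρ, φ.1 g a₀ z ≤ -x)
    (fun φ x x' g hx h => by
      rcases h with h | h
      · exact Or.inl (hx.trans h)
      · exact Or.inr fun z hz => (h z hz).trans (by linarith))
    (by
      intro M T hMT
      have hT : T.Nonempty := Finset.card_pos.1 (lt_of_le_of_lt (Nat.zero_le _) hMT)
      by_cases hM : (M : ℝ) ≤ K₀
      · obtain ⟨g, hg⟩ := hT
        refine ⟨⟨_, nf_zero C K⟩, Or.inl hM, g, hg, ?_⟩
        rintro (h | h)
        · linarith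
        · have := h z₀ (mem_ball_self hρ)
          simp only at this
          linarith
      · push Not at hM
        have hM1 : (1 : ℝ) ≤ M := by linarith
        have hA1 : (1 : ℝ) ≤ (M : ℝ) ^ 2 := one_le_pow₀ hM1
        obtain ⟨φ, hφ, hfin, hφc, hφ1⟩ := hB ((M : ℝ) ^ 2) hA1
        refine ⟨⟨φ, hφ⟩, Or.inr fun z hz => ?_, ?_⟩
        · have h1 := hφ1 z hz
          have h2 : Real.log ((M : ℝ) ^ 2) ≤ 2 * M := by
            rw [Real.log_pow]
            have := Real.log_le_self (by linarith : (0 : ℝ) ≤ M)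
            push_cast
            linarith
          have h3 : B * (1 + Real.log ((M : ℝ) ^ 2)) ≤ B * (1 + 2 * M) := by gcongr
          change φ 1 a₀ z ≤ -(M : ℝ)
          nlinarith
        · by_contra hcon
          push Not at hcon
          have h1 : (T : Set Γ) ⊆ {γ : Γ | ∀ z ∈ ball z₀ ρ, φ γ a₀ z ≤ -1} := by
            intro g hg z hz
            rcases hcon g hg with h | h
            · linarith
            · exact (h z hz).trans (by linarith)
          have h3 : T.card ≤ Set.ncard {γ : Γ | ∀ z ∈ ball z₀ ρ, φ γ a₀ z ≤ -1} := by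
            rw [← Set.ncard_coe_finset]
            exact Set.ncard_le_ncard h1 hfin
          have h4 : ((M ^ (2 * n + 1) : ℕ) : ℝ) < B * ((M : ℝ) ^ 2) ^ n :=
            lt_of_lt_of_le (Nat.cast_lt.2 hMT) ((Nat.cast_le.2 h3).trans hφc)
          have h5 : B * ((M : ℝ) ^ 2) ^ n ≤ (M : ℝ) ^ (2 * n + 1) := by
            rw [← pow_mul, pow_succ, mul_comm]
            gcongr
            linarith
          push_cast at h4
          linarith)
  choose φ y x hx hD hnD using fun j : ℕ => hK (K₀ + 1 + j)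
  push Not at hnD
  have hx0 : ∀ j, K₀ < x j := fun j => by
    have := hx j
    have : (0 : ℝ) ≤ j := by positivity
    linarith
  have hK0 : 0 < K₀ := by linarith
  have hxp : ∀ j, 0 < x j := fun j => hK0.trans (hx0 j)
  refine ⟨t, ht, Real.exp (-1), Real.exp (-θ), (Real.exp_pos _).le, ?_,
    fun j γ a z => Real.exp ((φ j).1 (y j * γ) a z / x j), fun j => 1 / x j, ?_,
    fun j => qpsh (φ j).2 (y j) (hxp j), ?_, ?_⟩
  · rw [Real.exp_lt_exp]
    linarith
  · have h1 : Tendsto (fun j : ℕ => 1 / ((j : ℝ) + 1)) atTop (𝓝 0) :=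
      tendsto_one_div_add_atTop_nhds_zero_nat
    refine squeeze_zero (fun j => ?_) (fun j => ?_) h1
    · have := hxp j
      positivity
    · have := hx j
      have : (0 : ℝ) ≤ j := by positivity
      exact one_div_le_one_div_of_le (by positivity) (by linarith)
  · intro j z hz
    change Real.exp ((φ j).1 (y j * 1) a₀ z / x j) ≤ _
    rw [mul_one, Real.exp_le_exp]
    have h1 : (φ j).1 (y j) a₀ z ≤ -x j := by
      rcases hD j with h | h
      · exact absurd h (not_le.2 (hx0 j))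
      · exact h z hz
    rw [div_le_iff₀ (hxp j)]
    linarith
  · intro j
    obtain ⟨-, z, hz, h1⟩ := hnD j
    refine ⟨z, hz, ?_⟩
    change _ ≤ Real.exp ((φ j).1 (y j * t) a₀ z / x j)
    rw [Real.exp_le_exp, le_div_iff₀ (hxp j)]
    linarith

end Vale.Agent.P284.H731.K6
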