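import Vale.Agent.P284.H731.CY2

/-!
# P284, theorem CY (helper731): decay of the solution of the Monge-Ampère equation

`decay0`: if `F` has compact support, the solution tends to zero at infinity.
-/

open scoped Manifold ContDiff Topology NNReal ComplexOrder ComplexConjugate Pointwise
open Filter Set Metric MeasureTheory

set_option maxSynthPendingDepth 3

noncomputable section

namespace Vale.Agent.P284.H731.CY

open Vale.Agent.P272.K Vale.Agent.P284.H248 Vale.Agent.P284.H894 Vale.Agent.P284.H894.G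
  Vale.Agent.P284.H894.V Vale.Agent.P284.H409.K Vale.Agent.P284.H730.CY

theorem log_one_sub {q : ℝ} (h0 : 0 ≤ q) (h1 : q ≤ 1 / 2) : -(2 * q) ≤ Real.log (1 - q) := by
  have h2 : 0 < 1 - q := by linarith
  have h3 := Real.one_sub_inv_le_log_of_pos h2
  have h4 : 1 - (1 - q)⁻¹ = -(q / (1 - q)) := by
    field_simp
    ring
  have h5 : q / (1 - q) ≤ 2 * q := by
    rw [div_le_iff₀ h2]
    nlinarith
  linarith

section
variable {n : ℕ} {Γ : Type} [Group Γ] {C : Coc n Γ} {K : KM C}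

/-- **Decay**: `φ ≥ -2 ℓ` for a positive function `ℓ` on the group which tends to zero -/
theorem decay_bar [NeZero n] (P : PU C) {F φ : Γ → C.I → Cm n → ℝ}
    (hfin : {γ : Γ | ∃ a, ∃ z ∈ C.V a, F γ a z ≠ 0}.Finite) {A : ℝ}
    (hFA : ∀ γ a, ∀ z ∈ C.Ω a, 0 ≤ F γ a z ∧ F γ a z ≤ A) (h : MAF C K F φ) (hb : Bd C K φ) :
    ∃ ℓ : Γ → ℝ, (∀ γ, 0 < ℓ γ) ∧ (∀ ε : ℝ, 0 < ε → {γ | ε ≤ ℓ γ}.Finite) ∧
      ∀ γ a, ∀ z ∈ C.V a, -(2 * ℓ γ) ≤ φ γ a z := by
  have hVΩ : ∀ a, C.V a ⊆ C.Ω a := fun a => ball_subset_ball (by have := C.r_pos a; linarith)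
  have hsign := m0Concl.sign n Γ C K F φ h hb A hFA
  obtain ⟨L, hL0, hL⟩ := chi_bd C P K
  set A₁ : ℝ := max A 1 with hA₁
  have hA₁0 : 0 < A₁ := lt_max_of_lt_right one_pos
  set D : ℝ := Fintype.card C.I * (2 * L) with hD
  have hD0 : 0 ≤ D := by positivity
  set η : ℝ := 1 / (4 + 2 * D * A₁ + 4 * n * D) with hη
  have hden : 0 < 4 + 2 * D * A₁ + 4 * n * D := by positivity
  have hη0 : 0 < η := by positivity
  have hη1 : η * (4 + 2 * D * A₁ + 4 * n * D) = 1 := by
    rw [hη]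
    field_simp
  have e1 : 0 ≤ η * (2 * D * A₁) := by positivity
  have e2 : 0 ≤ η * (4 * n * D) := by positivity
  have hη4 : η ≤ 1 / 4 := by nlinarith
  have hηD : D * η * A₁ ≤ 1 / 2 := by nlinarith
  have hηn : 2 * n * D * η ≤ 1 / 2 := by nlinarith
  obtain ⟨ℓ, hℓ0, hℓf, hℓs, hℓG⟩ := exists_slow C hA₁0 hη0 (by linarith) hfin
  refine ⟨ℓ, fun γ => (hℓ0 γ).1, hℓf, ?_⟩
  have hbar := bar_smF P ℓ
  have hbm : ∀ γ a, ∀ z ∈ C.V a, |bar P ℓ γ a z - ℓ γ| ≤ 2 * η * ℓ γ := fun γ a z hz =>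
    bar_mem P γ (hℓs γ) a hz
  have hbar0 : ∀ γ a z, 0 ≤ bar P ℓ γ a z := fun γ a z =>
    Finset.sum_nonneg fun b _ => mul_nonneg (P.nonneg b a z) (hℓ0 _).1.le
  have hneg : SmF C fun γ a z => -bar P ℓ γ a z :=
    { smooth := fun γ a z hz => (hbar.smooth γ a z hz).neg
      compat := fun γ a b z hz => by rw [hbar.compat γ a b z hz] }
  -- the Hessian of the barrier
  have hq : ∀ γ a, ∀ z ∈ C.V a, ((((D * η * ℓ γ : ℝ)) : ℂ) • K.w a z +
      cHess (fun z => -bar P ℓ γ a z) z).PosSemidef := by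
    intro γ a z hz
    have h1 := comb_psd P K hL hL0 hz (fun b => -(bc P ℓ γ a z b - ℓ γ)) (τ := 2 * η * ℓ γ)
      (fun b => by
        rw [abs_neg]
        exact bc_mem P (by have := (hℓ0 γ).1; positivity) γ (hℓs γ) a hz b)
    have h2 : cHess (fun z => -bar P ℓ γ a z) z =
        ∑ b, ((-(bc P ℓ γ a z b - ℓ γ) : ℝ) : ℂ) • cHess (P.χ b a) z := by
      have h3 : cHess (fun z => -bar P ℓ γ a z) z = -cHess (bar P ℓ γ a) z :=
        C2.cHess_neg ((hbar.smooth γ a z (hVΩ a hz)).of_le (by norm_cast))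
      rw [h3, bar_hess P ℓ γ a (hVΩ a hz), ← Finset.sum_neg_distrib]
      refine Finset.sum_congr rfl fun b _ => ?_
      rw [Complex.ofReal_neg, neg_smul]
    rw [h2]
    convert h1 using 4
    rw [hD]
    ring
  have hq1 : ∀ γ, D * η * ℓ γ ≤ 1 / 2 := fun γ => by
    have : D * η * ℓ γ ≤ D * η * A₁ := by
      have := (hℓ0 γ).2
      gcongr
    linarith
  have hq0 : ∀ γ, 0 ≤ D * η * ℓ γ := fun γ => by
    have := (hℓ0 γ).1
    positivity
  have hcmp := cmp_low (C := C) K.w hneg h.toSmF (B := A) (δ := K.lam / 2) (c := 0)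
    (fun γ a z hz => by
      have h1 := hbar0 γ a z
      have h2 := (hsign γ a z hz).1
      linarith)
    (half_pos K.lam_pos)
    (fun γ a z hz => by
      have hw := H10.CY.sub_one_psd ((K.ku a).pos z (hVΩ a hz)).isHermitian
        (K.low a z (hVΩ a hz))
      have hw1 : (K.w a z).PosSemidef := ((K.ku a).pos z (hVΩ a hz)).posSemidef
      have e : K.w a z + cHess (fun z => -bar P ℓ γ a z) z -
          ((K.lam / 2 : ℝ) : ℂ) • (1 : Matrix (Fin n) (Fin n) ℂ) =
          ((((D * η * ℓ γ : ℝ)) : ℂ) • K.w a z + cHess (fun z => -bar P ℓ γ a z) z) +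
          (((1 / 2 - D * η * ℓ γ : ℝ) : ℂ) • K.w a z +
            ((1 / 2 : ℝ) : ℂ) • (K.w a z - (K.lam : ℂ) • 1)) := by
        push_cast
        module
      rw [e]
      refine (hq γ a z hz).add ((hw1.smul ?_).add (hw.smul ?_))
      · exact_mod_cast sub_nonneg.2 (hq1 γ)
      · have : (0 : ℝ) ≤ 1 / 2 := by norm_num
        exact_mod_cast this)
    (fun γ a z hz hlt => by
      have hzΩ := hVΩ a hz
      have hF : F γ a z = 0 := by
        by_contra hcon
        have h1 := hℓG γ ⟨a, z, hz, hcon⟩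
        have h2 : |bar P ℓ γ a z - ℓ γ| ≤ 0 := bar_mem P γ (fun s hs => by
          rw [h1.1, h1.2 s hs, sub_self, abs_zero]) a hz
        have h3 : bar P ℓ γ a z = A₁ := by
          have := abs_nonpos_iff.1 h2
          rw [h1.1] at this
          linarith
        have h4 := (hsign γ a z hzΩ).1
        have h5 := le_max_left A 1
        rw [h3] at hlt
        linarith
      have h1 := h.eq γ a z hzΩ
      have hwp := (K.ku a).pos z hzΩ
      have hc0 : 0 < 1 - D * η * ℓ γ := by have := hq1 γ; linarith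
      have h2 := N.det_re_le (hwp.smul (show (0 : ℂ) < ((1 - D * η * ℓ γ : ℝ) : ℂ) by
        exact_mod_cast hc0)) (B := K.w a z + cHess (fun z => -bar P ℓ γ a z) z) (by
          have e : K.w a z + cHess (fun z => -bar P ℓ γ a z) z -
              ((1 - D * η * ℓ γ : ℝ) : ℂ) • K.w a z =
              (((D * η * ℓ γ : ℝ)) : ℂ) • K.w a z + cHess (fun z => -bar P ℓ γ a z) z := by
            push_cast
            module
          rw [e]
          exact hq γ a z hz)
      have hd : 0 < (K.w a z).det.re := (Complex.pos_iff.1 hwp.det_pos).1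
      have h3 : (((1 - D * η * ℓ γ : ℝ) : ℂ) • K.w a z).det.re =
          (1 - D * η * ℓ γ) ^ n * (K.w a z).det.re := by
        rw [Matrix.det_smul, Fintype.card_fin, ← Complex.ofReal_pow, Complex.re_ofReal_mul]
      rw [h3] at h2
      have h4 := Real.log_le_log (by positivity) h2
      rw [Real.log_mul (by positivity) hd.ne', Real.log_pow] at h4
      have h5 := log_one_sub (hq0 γ) (hq1 γ)
      have h6 : -(2 * n * D * η * ℓ γ) ≤ n * Real.log (1 - D * η * ℓ γ) := by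
        calc -(2 * n * D * η * ℓ γ) = n * -(2 * (D * η * ℓ γ)) := by ring
          _ ≤ _ := by gcongr
      have h7 : 2 * n * D * η * ℓ γ ≤ bar P ℓ γ a z := by
        have h8 := (abs_le.1 (hbm γ a z hz)).1
        have h9 := (hℓ0 γ).1
        nlinarith
      linarith)
  intro γ a z hz
  have h1 := hcmp γ a z (hVΩ a hz)
  have h2 := (abs_le.1 (hbm γ a z hz)).2
  have h3 := (hℓ0 γ).1
  nlinarith

/-- **Decay** -/
theorem decay0 (P : PU C) {F φ : Γ → C.I → Cm n → ℝ}
    (hfin : {γ : Γ | ∃ a, ∃ z ∈ C.V a, F γ a z ≠ 0}.Finite) {A : ℝ}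
    (hFA : ∀ γ a, ∀ z ∈ C.Ω a, 0 ≤ F γ a z ∧ F γ a z ≤ A) (h : MAF C K F φ) (hb : Bd C K φ)
    {ε : ℝ} (hε : 0 < ε) : {γ : Γ | ∃ a, ∃ z ∈ C.V a, φ γ a z < -ε}.Finite := by
  rcases Nat.eq_zero_or_pos n with hn | hn
  · subst hn
    refine hfin.subset ?_
    rintro γ ⟨a, z, hz, h1⟩
    refine ⟨a, z, hz, fun h2 => ?_⟩
    have h3 := h.eq γ a z (ball_subset_ball (by have := C.r_pos a; linarith) hz)
    simp only [Matrix.det_fin_zero, Complex.one_re, Real.log_one, sub_self] at h3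
    linarith
  · have : NeZero n := ⟨hn.ne'⟩
    obtain ⟨ℓ, h0, hf, hφ⟩ := decay_bar P hfin hFA h hb
    refine (hf (ε / 2) (by positivity)).subset ?_
    rintro γ ⟨a, z, hz, h1⟩
    have := hφ γ a z hz
    show ε / 2 ≤ ℓ γ
    linarith

end

end Vale.Agent.P284.H731.CY
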