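import Vale.Agent.P284.H730.CY.Spec

/-!
# P284, theorem CY (helper731): smooth functions with compact support are bounded with all derivatives
-/

open scoped Manifold ContDiff Topology NNReal ComplexOrder
open Filter Set Metric MeasureTheory

set_option maxSynthPendingDepth 3

noncomputable section

namespace Vale.Agent.P284.H731.CY

open Vale.Agent.P272.K Vale.Agent.P284.H248 Vale.Agent.P284.H894 Vale.Agent.P284.H894.G
  Vale.Agent.P284.H894.V Vale.Agent.P284.H409.K Vale.Agent.P284.H730.CY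

section
variable {n : ℕ} {Γ : Type} [Group Γ]

/-- a smooth function with compact support vanishes on all but finitely many copies of a compact
part of a piece -/
theorem fin_of_tst {C : Coc n Γ} {F : Γ → C.I → Cm n → ℝ} (hF : IsTst C F) (a : C.I) {ρ : ℝ}
    (hρ : ρ < 4 * C.r a) : {γ : Γ | ∃ z ∈ closedBall (C.c a) ρ, F γ a z ≠ 0}.Finite := by
  have hsub : closedBall (C.c a) ρ ⊆ C.Ω a := closedBall_subset_ball hρ
  have hloc : ∀ z ∈ closedBall (C.c a) ρ, ∃ U ∈ 𝓝[closedBall (C.c a) ρ] z,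
      {γ : Γ | ∃ y ∈ U, F γ a y ≠ 0}.Finite := by
    intro z hz
    obtain ⟨b, hb, hb1⟩ := C.cover a z (hsub hz)
    have hT : ContinuousAt (C.T a b) z :=
      ((C.T_holo a b).differentiableAt ((C.O_open a b).mem_nhds hb)).continuousAt
    have hV : C.T a b z ∈ C.V b := ball_subset_ball (by have := C.r_pos b; linarith) hb1
    have hU : {y | y ∈ C.O a b ∧ C.T a b y ∈ C.V b ∧ C.κ a b y = C.κ a b z} ∈ 𝓝 z := by
      filter_upwards [(C.O_open a b).mem_nhds hb, hT (isOpen_ball.mem_nhds hV),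
        C.κ_loc a b z hb] with y h1 h2 h3
      exact ⟨h1, h2, h3⟩
    refine ⟨_, mem_nhdsWithin_of_mem_nhds hU, ?_⟩
    refine (hF.fin.preimage (f := fun γ : Γ => γ * C.κ a b z)
      (mul_left_injective _).injOn).subset ?_
    rintro γ ⟨y, ⟨h1, h2, h3⟩, h4⟩
    refine ⟨b, C.T a b y, h2, ?_⟩
    rw [← h3, ← hF.compat γ a b y h1]
    exact h4
  obtain ⟨U, hU1, hU2⟩ := (isCompact_closedBall (C.c a) ρ).induction_on
    (p := fun s => ∃ U, s ⊆ U ∧ {γ : Γ | ∃ y ∈ U, F γ a y ≠ 0}.Finite)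
    ⟨∅, Subset.rfl, by simp⟩
    (fun s t hst => fun ⟨U, h1, h2⟩ => ⟨U, hst.trans h1, h2⟩)
    (fun s t => fun ⟨U, h1, h2⟩ ⟨U', h1', h2'⟩ => ⟨U ∪ U', union_subset_union h1 h1',
      (h2.union h2').subset (by
        rintro γ ⟨y, hy | hy, h⟩
        · exact Or.inl ⟨y, hy, h⟩
        · exact Or.inr ⟨y, hy, h⟩)⟩)
    (fun z hz => by
      obtain ⟨U, hU, h⟩ := hloc z hz
      exact ⟨U, hU, U, Subset.rfl, h⟩)
  exact hU2.subset fun γ ⟨y, hy, h⟩ => ⟨y, hU1 hy, h⟩

end

/-- **FBS** -/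
theorem fbStmt : FBStmt := by
  intro n Γ _ C F hF
  refine { smooth := hF.smooth, compat := hF.compat, bd := ?_ }
  intro a ρ hρ k
  obtain ⟨ρ', h1, h2⟩ := exists_between hρ
  have hsub : closedBall (C.c a) ρ ⊆ C.Ω a := closedBall_subset_ball hρ
  have hfin := fin_of_tst hF a h2
  have hb : ∀ γ, ∃ B : ℝ, 0 ≤ B ∧ ∀ z ∈ closedBall (C.c a) ρ,
      ‖iteratedFDeriv ℝ k (F γ a) z‖ ≤ B := by
    intro γ
    have hc : ContinuousOn (fun z => iteratedFDeriv ℝ k (F γ a) z) (closedBall (C.c a) ρ) := by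
      intro z hz
      have h3 : ContDiffAt ℝ ∞ (F γ a) z := hF.smooth γ a z (hsub hz)
      have h4 : ContDiffAt ℝ 0 (iteratedFDeriv ℝ k (F γ a)) z :=
        h3.iteratedFDeriv_right (m := 0) (i := k) (by norm_cast; exact le_top)
      exact h4.continuousAt.continuousWithinAt
    obtain ⟨B, hB⟩ := (isCompact_closedBall (C.c a) ρ).exists_bound_of_continuousOn hc
    exact ⟨max B 0, le_max_right _ _, fun z hz => (hB z hz).trans (le_max_left _ _)⟩
  choose B hB0 hB using hb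
  refine ⟨∑ γ ∈ hfin.toFinset, B γ, fun γ z hz => ?_⟩
  by_cases hγ : γ ∈ hfin.toFinset
  · exact (hB γ z hz).trans (Finset.single_le_sum (fun γ _ => hB0 γ) hγ)
  · have h3 : ∀ y ∈ closedBall (C.c a) ρ', F γ a y = 0 := by
      intro y hy
      by_contra hcon
      exact hγ (hfin.mem_toFinset.2 ⟨y, hy, hcon⟩)
    have h4 : F γ a =ᶠ[𝓝 z] fun _ => (0 : ℝ) := by
      have hz' : z ∈ ball (C.c a) ρ' := mem_ball.2 (lt_of_le_of_lt (mem_closedBall.1 hz) h1)
      filter_upwards [isOpen_ball.mem_nhds hz'] with y hy using h3 y (ball_subset_closedBall hy)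
    have h5 : iteratedFDeriv ℝ k (F γ a) z = 0 := by
      rw [(h4.iteratedFDeriv ℝ k).eq_of_nhds]
      simp
    rw [h5, norm_zero]
    exact Finset.sum_nonneg fun γ _ => hB0 γ

end Vale.Agent.P284.H731.CY
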