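import Vale.Agent.P284.H731.CY1
import Vale.Agent.P284.H10.CY.MaxE
import Vale.Agent.P284.H730.CY.Spec

/-!
# P284, theorem CY (helper731): the maximum principle for the Monge-Ampère equation on the covering
-/

open scoped Manifold ContDiff Topology NNReal ComplexOrder
open Filter Set Metric MeasureTheory

set_option maxSynthPendingDepth 3

noncomputable section

namespace Vale.Agent.P284.H731.CY

open Vale.Agent.P272.K Vale.Agent.P284.H248 Vale.Agent.P284.H894 Vale.Agent.P284.H894.G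
  Vale.Agent.P284.H894.V Vale.Agent.P284.H409.K Vale.Agent.P284.H730.CY

section
variable {n : ℕ} {Γ : Type} [Group Γ] {C : Coc n Γ} {K : KM C}

/-- a bounded solution is uniformly positive in the charts -/
theorem unif_pos {φ : Γ → C.I → Cm n → ℝ} (h : Bd C K φ) : ∃ δ : ℝ, 0 < δ ∧
    ∀ γ a, ∀ z ∈ C.V a, (K.w a z + cHess (φ γ a) z - (δ : ℂ) • 1).PosSemidef := by
  obtain ⟨c, hc, h1⟩ := h.low
  refine ⟨c * K.lam, mul_pos hc K.lam_pos, fun γ a z hz => ?_⟩
  have hzΩ : z ∈ C.Ω a := ball_subset_ball (by have := C.r_pos a; linarith) hz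
  have h2 := H10.CY.sub_one_psd ((K.ku a).pos z hzΩ).isHermitian (K.low a z hzΩ)
  have h3 : K.w a z + cHess (φ γ a) z - ((c * K.lam : ℝ) : ℂ) • (1 : Matrix (Fin n) (Fin n) ℂ) =
      (K.w a z + cHess (φ γ a) z - (c : ℂ) • K.w a z) +
        (c : ℂ) • (K.w a z - (K.lam : ℂ) • 1) := by
    rw [smul_sub, smul_smul]
    push_cast
    abel
  rw [h3]
  exact (h1 γ a z hzΩ).add (h2.smul (by exact_mod_cast hc.le))

/-- **Comparison of two solutions** -/
theorem ma_cmp {F F' φ φ' : Γ → C.I → Cm n → ℝ} (h : MAF C K F φ) (hb : Bd C K φ)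
    (h' : MAF C K F' φ') (hb' : Bd C K φ') {A : ℝ}
    (hA : ∀ γ a, ∀ z ∈ C.Ω a, F' γ a z - F γ a z ≤ A) :
    ∀ γ a, ∀ z ∈ C.Ω a, φ γ a z - φ' γ a z ≤ A := by
  rcases Nat.eq_zero_or_pos n with hn | hn
  · subst hn
    intro γ a z hz
    have h1 := h.eq γ a z hz
    have h2 := h'.eq γ a z hz
    simp only [Matrix.det_fin_zero, Complex.one_re, Real.log_one, sub_self] at h1 h2
    have h3 := hA γ a z hz
    linarith
  · have : NeZero n := ⟨hn.ne'⟩
    obtain ⟨B, hB⟩ := hb.b0
    obtain ⟨B', hB'⟩ := hb'.b0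
    obtain ⟨δ, hδ, hp⟩ := unif_pos hb'
    refine cmp_up K.w h.toSmF h'.toSmF (B := B + B') (fun γ a z hz => ?_) hδ
      (fun γ a z hz => h.pos γ a z (ball_subset_ball (by have := C.r_pos a; linarith) hz)) hp
      (fun γ a z hz _ => ?_)
    · have h1 := abs_le.1 (hB γ a z hz)
      have h2 := abs_le.1 (hB' γ a z hz)
      linarith
    · have hzΩ : z ∈ C.Ω a := ball_subset_ball (by have := C.r_pos a; linarith) hz
      have h1 := h.eq γ a z hzΩ
      have h2 := h'.eq γ a z hzΩ
      have h3 := hA γ a z hzΩ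
      linarith

theorem maf_zero (C : Coc n Γ) (K : KM C) :
    MAF C K (fun _ _ _ => 0) (fun _ _ _ => 0) ∧ Bd C K (fun _ _ _ => 0) := by
  have h0 : ∀ z : Cm n, cHess (fun _ => (0 : ℝ)) z = 0 := fun z => C2.cHess_const _
  refine ⟨{ smooth := fun γ a z hz => contDiffAt_const
            compat := fun γ a b z hz => rfl
            pos := fun γ a z hz => ?_
            eq := fun γ a z hz => ?_ }, ⟨⟨0, fun γ a z hz => by simp⟩, ⟨1, fun γ a z hz => ?_⟩,
            ⟨1, one_pos, fun γ a z hz => ?_⟩⟩⟩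
  · rw [h0, add_zero]
    exact (K.ku a).pos z hz
  · rw [h0, add_zero]
    simp
  · rw [h0, add_zero]
    simp [Matrix.PosSemidef.zero]
  · rw [h0, add_zero]
    simp [Matrix.PosSemidef.zero]

end

/-- **M0**, without OY -/
theorem m0Concl : M0Concl where
  bound := by
    intro n Γ _ C K F φ h hb A hA γ a z hz
    obtain ⟨h0, hb0⟩ := maf_zero C K
    have h1 := ma_cmp h hb h0 hb0 (A := A) (fun γ a z hz => by
      have := abs_le.1 (hA γ a z hz); linarith) γ a z hz
    have h2 := ma_cmp h0 hb0 h hb (A := A) (fun γ a z hz => by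
      have := abs_le.1 (hA γ a z hz); linarith) γ a z hz
    exact abs_le.2 ⟨by linarith, by linarith⟩
  sign := by
    intro n Γ _ C K F φ h hb A hA γ a z hz
    obtain ⟨h0, hb0⟩ := maf_zero C K
    have h1 := ma_cmp h hb h0 hb0 (A := 0) (fun γ a z hz => by
      have := hA γ a z hz; linarith) γ a z hz
    have h2 := ma_cmp h0 hb0 h hb (A := A) (fun γ a z hz => by
      have := hA γ a z hz; linarith) γ a z hz
    exact ⟨by linarith, by linarith⟩
  compare := by
    intro n Γ _ C K F F' φ φ' h hb h' hb' A hA γ a z hz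
    have h1 := ma_cmp h hb h' hb' (A := A) (fun γ a z hz => by
      have := abs_le.1 (hA γ a z hz); linarith) γ a z hz
    have h2 := ma_cmp h' hb' h hb (A := A) (fun γ a z hz => by
      have := abs_le.1 (hA γ a z hz); linarith) γ a z hz
    exact abs_le.2 ⟨by linarith, by linarith⟩

theorem m0Stmt : M0Stmt := fun _ => m0Concl

end Vale.Agent.P284.H731.CY
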