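import Vale.Agent.P284.H639.T6
import Vale.Agent.P284.H287.T.Calc

/-!
# P284, theorem T, (c8), (c9) (helper731): smoothness, linearity, closure properties of sections
-/

open scoped Manifold ContDiff Topology Pointwise ComplexConjugate ComplexOrder InnerProductSpace
open Filter Set Metric MeasureTheory

noncomputable section

namespace Vale.Agent.P284.H731.T8

open Vale.Agent.P272.K Vale.Agent.P272.K.C2 Vale.Agent.P284.H248 Vale.Agent.P284.H894
  Vale.Agent.P284.H894.V Vale.Agent.P284.H639.V Vale.Agent.P284.H639.Tw Vale.Agent.P284.H66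
  Vale.Agent.P284.H913.V Vale.Agent.P284.H66.S7 Vale.Agent.P284.H287.T Vale.Agent.P284.H359.V
  Vale.Agent.P284.H639.T6

section loc

variable {n : ℕ} {H : Type} [NormedAddCommGroup H] [InnerProductSpace ℝ H]
variable {H' : Type} [NormedAddCommGroup H'] [InnerProductSpace ℝ H']
variable {U : Set (Cm n)} {w : Cm n → Matrix (Fin n) (Fin n) ℂ} {u v u' v' : Cm n → H} {z : Cm n}

/-! ### Smoothness -/

theorem fd_smooth (hu : ContDiffAt ℝ ∞ u z) : ContDiffAt ℝ ∞ (fderiv ℝ u) z :=
  hu.fderiv_right (m := ∞) (by norm_num)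

theorem dH_smooth (hu : ContDiffAt ℝ ∞ u z) (a : Fin n × Bool) :
    ContDiffAt ℝ ∞ (fun y => dH u y a) z := (fd_smooth hu).clm_apply contDiffAt_const

theorem ddH_smooth (hu : ContDiffAt ℝ ∞ u z) (a b : Fin n × Bool) :
    ContDiffAt ℝ ∞ (fun y => ddH u y a b) z :=
  (fd_smooth (dH_smooth hu b)).clm_apply contDiffAt_const

theorem lapH_smooth (hw : KU U w) (hz : z ∈ U) (hu : ContDiffAt ℝ ∞ u z) :
    ContDiffAt ℝ ∞ (lapH w u) z :=
  ContDiffAt.sum fun a _ => ContDiffAt.sum fun b _ => (cw_cont hw hz a b).smul (ddH_smooth hu a b)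

theorem grH_smooth (hw : KU U w) (hz : z ∈ U) (hu : ContDiffAt ℝ ∞ u z)
    (hv : ContDiffAt ℝ ∞ v z) : ContDiffAt ℝ ∞ (grH w u v) z :=
  ContDiffAt.sum fun a _ => ContDiffAt.sum fun b _ =>
    (cw_cont hw hz a b).mul ((dH_smooth hu a).inner ℝ (dH_smooth hv b))

theorem hhH_smooth (hw : KU U w) (hz : z ∈ U) (hu : ContDiffAt ℝ ∞ u z)
    (hv : ContDiffAt ℝ ∞ v z) : ContDiffAt ℝ ∞ (hhH w u v) z := by
  have h0 : (w z).det ≠ 0 := (hw.pos z hz).det_pos.ne'
  have h1 : MC ∞ w z := fun i j => hw.smooth z hz i j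
  refine ContDiffAt.sum fun a _ => ContDiffAt.sum fun b _ => ContDiffAt.sum fun c _ =>
    ContDiffAt.sum fun d _ => ?_
  refine ContDiffAt.mul (ContDiffAt.mul contDiffAt_const ?_)
    ((ddH_smooth hu a b).inner ℝ (ddH_smooth hv c d))
  exact Complex.reCLM.contDiff.contDiffAt.comp z ((((h1.inv h0 d.1 a.1).mul
    (h1.inv h0 b.1 c.1)).mul contDiffAt_const).mul contDiffAt_const)

/-! ### Affine maps -/

theorem sm_ev (hu : ContDiffAt ℝ ∞ u z) : ∀ᶠ y in 𝓝 z, DifferentiableAt ℝ u y := by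
  have h1 : ContDiffAt ℝ 1 u z := hu.of_le (by norm_num)
  filter_upwards [h1.eventually (by norm_num)] with y hy
  exact hy.differentiableAt (by norm_num)

theorem dH_aff (A : H →L[ℝ] H') (c : H') (hu : DifferentiableAt ℝ u z) (a : Fin n × Bool) :
    dH (fun y => A (u y) + c) z a = A (dH u z a) := by
  have h1 : HasFDerivAt (fun y => A (u y) + c) (A.comp (fderiv ℝ u z)) z :=
    (A.hasFDerivAt.comp z hu.hasFDerivAt).add_const c
  rw [dH, h1.fderiv]
  rfl

theorem ddH_aff (A : H →L[ℝ] H') (c : H') (hu : ContDiffAt ℝ ∞ u z) (a b : Fin n × Bool) :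
    ddH (fun y => A (u y) + c) z a b = A (ddH u z a b) := by
  have h1 : (fun y => fderiv ℝ (fun y => A (u y) + c) y (ev b)) =ᶠ[𝓝 z]
      fun y => A (dH u y b) + 0 := by
    filter_upwards [sm_ev hu] with y hy
    rw [add_zero]
    exact dH_aff A c hy b
  rw [ddH, h1.fderiv_eq]
  exact dH_aff A 0 ((dH_smooth hu b).differentiableAt (by norm_num)) a

theorem lapH_aff (w : Cm n → Matrix (Fin n) (Fin n) ℂ) (A : H →L[ℝ] H') (c : H')
    (hu : ContDiffAt ℝ ∞ u z) : lapH w (fun y => A (u y) + c) z = A (lapH w u z) := by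
  rw [lapH, lapH, map_sum]
  refine Finset.sum_congr rfl fun a _ => ?_
  rw [map_sum]
  refine Finset.sum_congr rfl fun b _ => ?_
  rw [ddH_aff A c hu, map_smul]

theorem grH_aff (w : Cm n → Matrix (Fin n) (Fin n) ℂ) (A : H ≃ₗᵢ[ℝ] H) (c c' : H)
    (hu : DifferentiableAt ℝ u z) (hv : DifferentiableAt ℝ v z) :
    grH w (fun y => A (u y) + c) (fun y => A (v y) + c') z = grH w u v z := by
  refine Finset.sum_congr rfl fun a _ => Finset.sum_congr rfl fun b _ => ?_
  have h1 := dH_aff (A : H →L[ℝ] H) c hu a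
  have h2 := dH_aff (A : H →L[ℝ] H) c' hv b
  have e1 : dH (fun y => A (u y) + c) z a = A (dH u z a) := h1
  have e2 : dH (fun y => A (v y) + c') z b = A (dH v z b) := h2
  rw [e1, e2, LinearIsometryEquiv.inner_map_map]

theorem hhH_aff (w : Cm n → Matrix (Fin n) (Fin n) ℂ) (A : H ≃ₗᵢ[ℝ] H) (c c' : H)
    (hu : ContDiffAt ℝ ∞ u z) (hv : ContDiffAt ℝ ∞ v z) :
    hhH w (fun y => A (u y) + c) (fun y => A (v y) + c') z = hhH w u v z := by
  refine Finset.sum_congr rfl fun a _ => Finset.sum_congr rfl fun b _ =>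
    Finset.sum_congr rfl fun i _ => Finset.sum_congr rfl fun j _ => ?_
  have h1 := ddH_aff (A : H →L[ℝ] H) c hu a b
  have h2 := ddH_aff (A : H →L[ℝ] H) c' hv i j
  have e1 : ddH (fun y => A (u y) + c) z a b = A (ddH u z a b) := h1
  have e2 : ddH (fun y => A (v y) + c') z i j = A (ddH v z i j) := h2
  rw [e1, e2, LinearIsometryEquiv.inner_map_map]

/-! ### Sums and multiples -/

theorem dH_add (hu : DifferentiableAt ℝ u z) (hv : DifferentiableAt ℝ v z) (a : Fin n × Bool) :
    dH (fun y => u y + v y) z a = dH u z a + dH v z a := by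
  rw [dH, fderiv_fun_add hu hv]
  rfl

theorem ddH_add (hu : ContDiffAt ℝ ∞ u z) (hv : ContDiffAt ℝ ∞ v z) (a b : Fin n × Bool) :
    ddH (fun y => u y + v y) z a b = ddH u z a b + ddH v z a b := by
  have h1 : (fun y => fderiv ℝ (fun y => u y + v y) y (ev b)) =ᶠ[𝓝 z]
      fun y => dH u y b + dH v y b := by
    filter_upwards [sm_ev hu, sm_ev hv] with y hy hy'
    exact dH_add hy hy' b
  rw [ddH, h1.fderiv_eq]
  exact dH_add ((dH_smooth hu b).differentiableAt (by norm_num))
    ((dH_smooth hv b).differentiableAt (by norm_num)) a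

theorem lapH_add (w : Cm n → Matrix (Fin n) (Fin n) ℂ) (hu : ContDiffAt ℝ ∞ u z)
    (hv : ContDiffAt ℝ ∞ v z) : lapH w (fun y => u y + v y) z = lapH w u z + lapH w v z := by
  rw [lapH, lapH, lapH, ← Finset.sum_add_distrib]
  refine Finset.sum_congr rfl fun a _ => ?_
  rw [← Finset.sum_add_distrib]
  refine Finset.sum_congr rfl fun b _ => ?_
  rw [ddH_add hu hv, smul_add]

theorem lapH_smul (w : Cm n → Matrix (Fin n) (Fin n) ℂ) (r : ℝ) (hu : ContDiffAt ℝ ∞ u z) :
    lapH w (fun y => r • u y) z = r • lapH w u z := by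
  have h := lapH_aff w (r • ContinuousLinearMap.id ℝ H) 0 hu
  simpa using h

theorem lapH_neg (w : Cm n → Matrix (Fin n) (Fin n) ℂ) (hu : ContDiffAt ℝ ∞ u z) :
    lapH w (fun y => - u y) z = - lapH w u z := by
  have h := lapH_smul w (-1) hu
  simpa using h

theorem lapH_sub (w : Cm n → Matrix (Fin n) (Fin n) ℂ) (hu : ContDiffAt ℝ ∞ u z)
    (hv : ContDiffAt ℝ ∞ v z) : lapH w (fun y => u y - v y) z = lapH w u z - lapH w v z := by
  have h := lapH_add w hu hv.neg
  have h2 := lapH_neg w hv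
  simp only [sub_eq_add_neg]
  rw [← h2]
  exact h

theorem dH_smul (r : ℝ) (hu : DifferentiableAt ℝ u z) (a : Fin n × Bool) :
    dH (fun y => r • u y) z a = r • dH u z a := by
  have h := dH_aff (r • ContinuousLinearMap.id ℝ H) 0 hu a
  simpa using h

theorem ddH_smul (r : ℝ) (hu : ContDiffAt ℝ ∞ u z) (a b : Fin n × Bool) :
    ddH (fun y => r • u y) z a b = r • ddH u z a b := by
  have h := ddH_aff (r • ContinuousLinearMap.id ℝ H) 0 hu a b
  simpa using h

theorem grH_add_left (w : Cm n → Matrix (Fin n) (Fin n) ℂ) (hu : DifferentiableAt ℝ u z)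
    (hu' : DifferentiableAt ℝ u' z) (v : Cm n → H) :
    grH w (fun y => u y + u' y) v z = grH w u v z + grH w u' v z := by
  rw [grH, grH, grH, ← Finset.sum_add_distrib]
  refine Finset.sum_congr rfl fun a _ => ?_
  rw [← Finset.sum_add_distrib]
  refine Finset.sum_congr rfl fun b _ => ?_
  rw [dH_add hu hu', inner_add_left, mul_add]

theorem grH_add_right (w : Cm n → Matrix (Fin n) (Fin n) ℂ) (u : Cm n → H)
    (hv : DifferentiableAt ℝ v z) (hv' : DifferentiableAt ℝ v' z) :
    grH w u (fun y => v y + v' y) z = grH w u v z + grH w u v' z := by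
  rw [grH, grH, grH, ← Finset.sum_add_distrib]
  refine Finset.sum_congr rfl fun a _ => ?_
  rw [← Finset.sum_add_distrib]
  refine Finset.sum_congr rfl fun b _ => ?_
  rw [dH_add hv hv', inner_add_right, mul_add]

theorem grH_smul_left (w : Cm n → Matrix (Fin n) (Fin n) ℂ) (r : ℝ)
    (hu : DifferentiableAt ℝ u z) (v : Cm n → H) :
    grH w (fun y => r • u y) v z = r * grH w u v z := by
  rw [grH, grH, Finset.mul_sum]
  refine Finset.sum_congr rfl fun a _ => ?_
  rw [Finset.mul_sum]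
  refine Finset.sum_congr rfl fun b _ => ?_
  rw [dH_smul r hu, real_inner_smul_left]
  ring

theorem grH_smul_right (w : Cm n → Matrix (Fin n) (Fin n) ℂ) (r : ℝ) (u : Cm n → H)
    (hv : DifferentiableAt ℝ v z) : grH w u (fun y => r • v y) z = r * grH w u v z := by
  rw [grH, grH, Finset.mul_sum]
  refine Finset.sum_congr rfl fun a _ => ?_
  rw [Finset.mul_sum]
  refine Finset.sum_congr rfl fun b _ => ?_
  rw [dH_smul r hv, real_inner_smul_right]
  ring

end loc

/-! ### Sections -/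

section sec

variable {n : ℕ} {Γ : Type} [Group Γ] {C : Coc n Γ}
variable {H : Type} [NormedAddCommGroup H] [InnerProductSpace ℝ H]
variable {π : Γ →* (H ≃ₗᵢ[ℝ] H)} {b b' : Γ → H} {u v : Γ → C.I → Cm n → H}

theorem sec_zero : Sec C π (0 : Γ → H) (fun _ _ _ => 0) where
  smooth _ _ _ _ := contDiffAt_const
  compat _ _ _ _ _ := rfl
  equi g _ _ _ _ := by simp

theorem sec_add (hu : Sec C π b u) (hv : Sec C π b' v) :
    Sec C π (b + b') (fun γ a z => u γ a z + v γ a z) where
  smooth γ a z hz := (hu.smooth γ a z hz).add (hv.smooth γ a z hz)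
  compat γ a d z hz := by rw [hu.compat γ a d z hz, hv.compat γ a d z hz]
  equi g γ a z hz := by
    rw [hu.equi g γ a z hz, hv.equi g γ a z hz, map_add, Pi.add_apply]
    abel

theorem sec_smul (r : ℝ) (hu : Sec C π b u) :
    Sec C π (r • b) (fun γ a z => r • u γ a z) where
  smooth γ a z hz := contDiffAt_const.smul (hu.smooth γ a z hz)
  compat γ a d z hz := by rw [hu.compat γ a d z hz]
  equi g γ a z hz := by
    rw [hu.equi g γ a z hz, map_smul, Pi.smul_apply, smul_add]

theorem sec_neg (hu : Sec C π b u) : Sec C π (-b) (fun γ a z => - u γ a z) := by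
  have h := sec_smul (-1) hu
  simpa using h

theorem sec_sub (hu : Sec C π b u) (hv : Sec C π b' v) :
    Sec C π (b - b') (fun γ a z => u γ a z - v γ a z) := by
  have h := sec_add hu (sec_neg hv)
  simpa [sub_eq_add_neg] using h

theorem sec_add0 (hu : Sec C π 0 u) (hv : Sec C π 0 v) :
    Sec C π 0 (fun γ a z => u γ a z + v γ a z) := by
  have h := sec_add hu hv
  rwa [add_zero] at h

theorem sec_add0' (hu : Sec C π b u) (hv : Sec C π 0 v) :
    Sec C π b (fun γ a z => u γ a z + v γ a z) := by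
  have h := sec_add hu hv
  rwa [add_zero] at h

theorem sec_smul0 (r : ℝ) (hu : Sec C π 0 u) : Sec C π 0 (fun γ a z => r • u γ a z) := by
  have h := sec_smul r hu
  rwa [smul_zero] at h

theorem sec_neg0 (hu : Sec C π 0 u) : Sec C π 0 (fun γ a z => - u γ a z) := by
  have h := sec_neg hu
  rwa [neg_zero] at h

theorem sec_sub0 (hu : Sec C π b u) (hv : Sec C π b v) :
    Sec C π 0 (fun γ a z => u γ a z - v γ a z) := by
  have h := sec_sub hu hv
  rwa [sub_self] at h

theorem sec_congr (hu : Sec C π b u) (h : ∀ γ a, ∀ z ∈ C.Ω a, v γ a z = u γ a z) :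
    Sec C π b v where
  smooth γ a z hz := by
    refine (hu.smooth γ a z hz).congr_of_eventuallyEq ?_
    filter_upwards [(isOpen_Ω C a).mem_nhds hz] with y hy using h γ a y hy
  compat γ a d z hz := by
    rw [h _ _ _ (O_sub_Ω C hz), h _ _ _ (T_mem_Ω C hz), hu.compat γ a d z hz]
  equi g γ a z hz := by rw [h _ _ _ hz, h _ _ _ hz, hu.equi g γ a z hz]

/-- compatibility near a point -/
theorem sec_ev (hu : Sec C π b u) (γ : Γ) {a d : C.I} {z : Cm n} (hz : z ∈ C.O a d) :
    ∀ᶠ y in 𝓝 z, u γ a y = u (γ * C.κ a d z) d (C.T a d y) := by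
  filter_upwards [(C.O_open a d).mem_nhds hz, C.κ_loc a d z hz] with y hy hk
  rw [hu.compat γ a d y hy, hk]

/-- the value on the piece `1` near a point -/
theorem sec_one_ev (hu : Sec C π b u) {a d : C.I} {z : Cm n} (hz : z ∈ C.O a d) :
    ∀ᶠ y in 𝓝 z, u 1 a y = π (C.κ a d z) (u 1 d (C.T a d y)) + b (C.κ a d z) := by
  filter_upwards [sec_ev hu 1 hz, (C.O_open a d).mem_nhds hz] with y hy hyO
  have h := hu.equi (C.κ a d z) 1 d (C.T a d y) (T_mem_Ω C hyO)
  rw [mul_one] at h
  rw [hy, one_mul, h]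

theorem sec_equi_ev (hu : Sec C π b u) (g γ : Γ) {a : C.I} {z : Cm n} (hz : z ∈ C.Ω a) :
    u (g * γ) a =ᶠ[𝓝 z] fun y => π g (u γ a y) + b g := by
  filter_upwards [(isOpen_Ω C a).mem_nhds hz] with y hy using hu.equi g γ a y hy

end sec

end Vale.Agent.P284.H731.T8
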