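import Vale.Agent.P284.H731.S2b
import Vale.Agent.P284.H5.V16
import Vale.Agent.P284.H894.W.Spec

/-!
# P284, theorem W, block WALB (helper731), part 1: the space of holomorphic functions with periods
-/

open scoped Manifold ContDiff Topology Pointwise ComplexConjugate ComplexOrder
open Filter Set Metric

noncomputable section

namespace Vale.Agent.P284.H731.Alb

open Vale.Agent.P272.K Vale.Agent.P284.H894.V Vale.Agent.P284.H465.V17 Vale.Agent.P284.H894.G
  Vale.Agent.P284.H731.S2 Vale.Agent.P284.H5.V Vale.Agent.P284.H894.W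

section
variable {n : ℕ} {X : Type} [TopologicalSpace X] [ChartedSpace (Cm n) X]
  {E : Type} [TopologicalSpace E] {p : E → X} {w : Chart n X → Cm n → Matrix (Fin n) (Fin n) ℂ}
  {u v : E → ℝ} {B : ℝ} {Γ : Type} [Group Γ] [MulAction Γ E]

/-- A pluriharmonic function with bounded gradient, invariant under a subgroup of finite index, is
constant. -/
theorem const_of_fi [CompactSpace X] [Nonempty X] [ConnectedSpace E] (hG : IsGalois Γ p)
    (hu : IsPHB p w u B) (G : Subgroup Γ) (hfi : G.FiniteIndex)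
    (hinv : ∀ g ∈ G, ∀ y, u (g • y) = u y) (y y' : E) : u y = u y' := by
  have : Finite (Γ ⧸ G) := G.finite_quotient_of_finiteIndex
  have : Fintype (Γ ⧸ G) := Fintype.ofFinite _
  let U : (Γ ⧸ G) → E → ℝ := fun q y => u (q.out⁻¹ • y)
  have hU : ∀ (γ : Γ) (y : E), U (γ : Γ ⧸ G) y = u (γ⁻¹ • y) := by
    intro γ y
    obtain ⟨g, hg⟩ := QuotientGroup.mk_out_eq_mul G γ
    show u ((γ : Γ ⧸ G).out⁻¹ • y) = _
    rw [hg, mul_inv_rev, mul_smul]
    exact hinv _ (G.inv_mem g.2) _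
  have hSne : (Finset.univ : Finset (Γ ⧸ G)).Nonempty := ⟨((1 : Γ) : Γ ⧸ G), Finset.mem_univ _⟩
  let m : E → ℝ := fun y => Finset.univ.sup' hSne fun q => U q y
  have hcont : ∀ q, Continuous (U q) := fun q => (phb_continuous hG.cov hu).comp (hG.cont _)
  have hm : Continuous m := Continuous.finset_sup'_apply hSne fun q _ => hcont q
  have hinv2 : ∀ (γ : Γ) (y : E), m (γ • y) = m y := by
    have hle : ∀ (γ : Γ) (y : E), m (γ • y) ≤ m y := by
      intro γ y
      refine Finset.sup'_le hSne _ fun q _ => ?_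
      have h1 : U q (γ • y) = U ((γ⁻¹ * q.out : Γ) : Γ ⧸ G) y := by
        rw [hU, mul_inv_rev, inv_inv, mul_smul]
      rw [h1]
      exact Finset.le_sup' (fun q => U q y) (Finset.mem_univ _)
    intro γ y
    refine le_antisymm (hle γ y) ?_
    have := hle γ⁻¹ (γ • y)
    rwa [inv_smul_smul] at this
  have hq : Topology.IsQuotientMap p := hG.cov.isLocalHomeomorph.isOpenMap.isQuotientMap
    hG.cov.continuous hG.surj
  let M : X → ℝ := fun x => m (hG.surj x).choose
  have hM : ∀ y, M (p y) = m y := by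
    intro y
    have h1 := (hG.surj (p y)).choose_spec
    obtain ⟨γ, hγ⟩ := (hG.orb y _).1 h1.symm
    show m (hG.surj (p y)).choose = m y
    rw [← hγ, hinv2]
  have hMc : Continuous M := by
    rw [hq.continuous_iff]
    have : M ∘ p = m := funext hM
    rwa [this]
  obtain ⟨x₀, -, hx₀⟩ := isCompact_univ.exists_isMaxOn (Set.univ_nonempty (α := X))
    hMc.continuousOn
  obtain ⟨y₀, rfl⟩ := hG.surj x₀
  have hmax : ∀ y, m y ≤ m y₀ := fun y => by
    have := hx₀ (mem_univ (p y))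
    simp only [mem_ofPred_eq, hM] at this
    exact this
  obtain ⟨q, -, hs2⟩ := Finset.exists_mem_eq_sup' hSne fun q => U q y₀
  have hconst := const_of_max hG.cov (phb_smul hG hu q.out⁻¹) (y₀ := y₀) (fun y => by
    have h1 : U q y ≤ m y := Finset.le_sup' (fun q => U q y) (Finset.mem_univ q)
    have h2 : m y₀ = U q y₀ := hs2
    show U q y ≤ U q y₀
    rw [← h2]
    exact h1.trans (hmax y))
  have h3 : ∀ y, u y = U q (q.out • y) := fun y => by
    show _ = u (q.out⁻¹ • q.out • y)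
    rw [inv_smul_smul]
  have h4 : ∀ y, U q y = U q y₀ := hconst
  rw [h3 y, h3 y', h4, h4 (q.out • y')]

/-- the functions with constant periods along a subgroup of finite index -/
def per (Γ : Type) [Group Γ] (E : Type) [MulAction Γ E] : Submodule ℝ (E → ℝ) where
  carrier := {u | ∃ G' : Subgroup Γ, G'.FiniteIndex ∧ ∀ g ∈ G', ∃ c : ℝ, ∀ y, u (g • y) = u y + c}
  zero_mem' := ⟨⊤, inferInstance, fun g _ => ⟨0, fun y => by simp⟩⟩
  add_mem' := by
    rintro a b ⟨G₁, h1, h2⟩ ⟨G₂, h3, h4⟩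
    refine ⟨G₁ ⊓ G₂, inferInstance, fun g hg => ?_⟩
    obtain ⟨c, hc⟩ := h2 g hg.1
    obtain ⟨d, hd⟩ := h4 g hg.2
    exact ⟨c + d, fun y => by rw [Pi.add_apply, Pi.add_apply, hc, hd]; ring⟩
  smul_mem' := by
    rintro r a ⟨G₁, h1, h2⟩
    refine ⟨G₁, h1, fun g hg => ?_⟩
    obtain ⟨c, hc⟩ := h2 g hg
    exact ⟨r * c, fun y => by
      rw [Pi.smul_apply, Pi.smul_apply, hc, smul_eq_mul, smul_eq_mul]; ring⟩

/-- The space `V₀` -/
def V0 (p : E → X) (w : Chart n X → Cm n → Matrix (Fin n) (Fin n) ℂ) (Γ : Type) [Group Γ]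
    [MulAction Γ E] : Submodule ℝ (E → ℝ) := phb p w ⊓ per Γ E

theorem mem_V0 : u ∈ V0 p w Γ ↔ (∃ B, IsPHB p w u B) ∧
    ∃ G' : Subgroup Γ, G'.FiniteIndex ∧ ∀ g ∈ G', ∃ c : ℝ, ∀ y, u (g • y) = u y + c := Iff.rfl

/-- One subgroup for all functions. -/
theorem exists_subgroup [FiniteDimensional ℝ (V0 p w Γ)] : ∃ G : Subgroup Γ, G.FiniteIndex ∧
    ∀ u ∈ V0 p w Γ, ∀ g ∈ G, ∃ c : ℝ, ∀ y, u (g • y) = u y + c := by
  obtain ⟨S, hS⟩ := (Submodule.fg_iff_finiteDimensional (V0 p w Γ)).2 inferInstance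
  have h1 : ∀ u : S, ∃ G' : Subgroup Γ, G'.FiniteIndex ∧
      ∀ g ∈ G', ∃ c : ℝ, ∀ y, (u : E → ℝ) (g • y) = (u : E → ℝ) y + c := by
    intro u
    have h2 : (u : E → ℝ) ∈ V0 p w Γ := by
      rw [← hS]
      exact Submodule.subset_span u.2
    exact (mem_V0.1 h2).2
  choose G' h1 h2 using h1
  refine ⟨⨅ u : S, G' u, Subgroup.finiteIndex_iInf h1, fun u hu g hg => ?_⟩
  rw [← hS] at hu
  induction hu using Submodule.span_induction with
  | mem x hx => exact h2 ⟨x, hx⟩ g (Subgroup.mem_iInf.1 hg _)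
  | zero => exact ⟨0, fun y => by simp⟩
  | add a b _ _ ha hb =>
    obtain ⟨c, hc⟩ := ha
    obtain ⟨d, hd⟩ := hb
    exact ⟨c + d, fun y => by rw [Pi.add_apply, Pi.add_apply, hc, hd]; ring⟩
  | smul r a _ ha =>
    obtain ⟨c, hc⟩ := ha
    exact ⟨r * c, fun y => by
      rw [Pi.smul_apply, Pi.smul_apply, hc, smul_eq_mul, smul_eq_mul]; ring⟩

/-- The space of holomorphic functions `f` with `Re f, Im f ∈ V₀` and `f y₀ = 0`. -/
def H0 (p : E → X) (w : Chart n X → Cm n → Matrix (Fin n) (Fin n) ℂ) (Γ : Type) [Group Γ]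
    [MulAction Γ E] (y₀ : E) : Submodule ℂ (E → ℂ) where
  carrier := {f | (fun y => (f y).re) ∈ V0 p w Γ ∧ (fun y => (f y).im) ∈ V0 p w Γ ∧
    Conj n p (fun y => (f y).re) (fun y => (f y).im) ∧ f y₀ = 0}
  zero_mem' := by
    refine ⟨(V0 p w Γ).zero_mem, (V0 p w Γ).zero_mem, ?_, rfl⟩
    intro y e _
    exact ⟨fun _ => 0, Eventually.of_forall fun _ => differentiableAt_const _,
      Eventually.of_forall fun q => by simp⟩
  add_mem' := by
    rintro a b ⟨ha1, ha2, ha3, ha4⟩ ⟨hb1, hb2, hb3, hb4⟩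
    refine ⟨?_, ?_, ?_, ?_⟩
    · exact (V0 p w Γ).add_mem ha1 hb1
    · exact (V0 p w Γ).add_mem ha2 hb2
    · exact (ha3.add hb3).congr (funext fun y => by simp) (funext fun y => by simp)
    · rw [Pi.add_apply, ha4, hb4, add_zero]
  smul_mem' := by
    rintro c a ⟨ha1, ha2, ha3, ha4⟩
    refine ⟨?_, ?_, ?_, ?_⟩
    · have h1 := (V0 p w Γ).sub_mem ((V0 p w Γ).smul_mem c.re ha1) ((V0 p w Γ).smul_mem c.im ha2)
      convert h1 using 1
      funext y
      simp
    · have h1 := (V0 p w Γ).add_mem ((V0 p w Γ).smul_mem c.re ha2) ((V0 p w Γ).smul_mem c.im ha1)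
      convert h1 using 1
      funext y
      simp
    · refine ((ha3.smul c.re).add (ha3.mul_I.smul c.im)).congr (funext fun y => ?_)
        (funext fun y => ?_)
      · simp only [Pi.smul_apply, smul_eq_mul, Complex.mul_re]
        ring
      · simp only [Pi.smul_apply, smul_eq_mul, Complex.mul_im]
    · rw [Pi.smul_apply, ha4, smul_zero]

theorem mem_H0 {y₀ : E} {f : E → ℂ} : f ∈ H0 p w Γ y₀ ↔ (fun y => (f y).re) ∈ V0 p w Γ ∧
    (fun y => (f y).im) ∈ V0 p w Γ ∧ Conj n p (fun y => (f y).re) (fun y => (f y).im) ∧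
    f y₀ = 0 := Iff.rfl

theorem finite_H0 [FiniteDimensional ℝ (V0 p w Γ)] (y₀ : E) :
    Module.Finite ℂ (H0 p w Γ y₀) := by
  let L : H0 p w Γ y₀ →ₗ[ℝ] (V0 p w Γ) × (V0 p w Γ) :=
    { toFun := fun f => (⟨_, (mem_H0.1 f.2).1⟩, ⟨_, (mem_H0.1 f.2).2.1⟩)
      map_add' := fun f g => by
        refine Prod.ext (Subtype.ext ?_) (Subtype.ext ?_)
        · funext y
          exact Complex.add_re _ _
        · funext y
          exact Complex.add_im _ _
      map_smul' := fun r f => by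
        refine Prod.ext (Subtype.ext ?_) (Subtype.ext ?_)
        · funext y
          exact Complex.smul_re _ _
        · funext y
          exact Complex.smul_im _ _ }
  have hL : Function.Injective L := by
    intro f g hfg
    apply Subtype.ext
    funext y
    have h1 := congrArg (fun x => (x.1 : E → ℝ) y) hfg
    have h2 := congrArg (fun x => (x.2 : E → ℝ) y) hfg
    exact Complex.ext h1 h2
  have : Module.Finite ℝ (H0 p w Γ y₀) := Module.Finite.of_injective L hL
  exact Module.Finite.of_restrictScalars_finite ℝ ℂ (H0 p w Γ y₀)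

end

end Vale.Agent.P284.H731.Alb
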