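import Vale.Agent.P284.H894.V.V8
import Vale.Agent.P284.H409.SpecA

/-!
# P284, theorem A, block A5 (helper731): the abstract resolvent lemma
-/

open Filter Set Metric Topology

noncomputable section

namespace Vale.Agent.P284.H731.Res

open Vale.Agent.P284.H894.V Vale.Agent.P284.H894.V.Abs

theorem resStmt : Vale.Agent.P284.H409.A.ResStmt := by
  intro V _ _ ip en L hs hp hs' hp' hL hD hP f δ hδ
  obtain ⟨l₀, hl₀, hD⟩ := hD
  have hDall : ∀ μ : ℝ, 0 < μ → D ip L μ := by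
    intro μ hμ
    exact D_step hs hp hp' hL hμ (le_max_left μ l₀) (D_of (hD _ (le_max_right μ l₀)))
  -- the approximate solutions
  have hex : ∀ j : ℕ, ∃ v, N ip ((1 / ((j : ℝ) + 1)) • v - L v - f) < 1 / ((j : ℝ) + 1) := fun j =>
    hDall _ (by positivity) f _ (by positivity)
  choose v hv using hex
  have hμ0 : ∀ j : ℕ, (0 : ℝ) < 1 / ((j : ℝ) + 1) := fun j => by positivity
  have hμ1 : ∀ j : ℕ, 1 / ((j : ℝ) + 1) ≤ 1 := by
    intro j
    rw [div_le_one (by positivity)]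
    have := Nat.cast_nonneg (α := ℝ) j
    linarith
  have hlimμ : Tendsto (fun j : ℕ => 1 / ((j : ℝ) + 1)) atTop (𝓝 0) :=
    tendsto_one_div_add_atTop_nhds_zero_nat
  have hB : ∀ j : ℕ, N ip ((1 / ((j : ℝ) + 1)) • v j - L (v j)) ≤ N ip f + 1 / ((j : ℝ) + 1) := by
    intro j
    have h1 : (1 / ((j : ℝ) + 1)) • v j - L (v j) =
        f + ((1 / ((j : ℝ) + 1)) • v j - L (v j) - f) := by abel
    rw [h1]
    exact (N_add hs hp _ _).trans (by linarith [hv j])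
  have hex2 : ∀ j : ℕ, (1 / ((j : ℝ) + 1)) ^ 2 * ip (v j) (v j) + 2 * (1 / ((j : ℝ) + 1)) *
      en (v j) (v j) + ip (L (v j)) (L (v j)) ≤ (N ip f + 1 / ((j : ℝ) + 1)) ^ 2 := by
    intro j
    rw [← expand hs hL, ← N_sq hp]
    exact pow_le_pow_left₀ (N_nonneg _ _) (hB j) 2
  have hB2 : ∀ j : ℕ, (N ip f + 1 / ((j : ℝ) + 1)) ^ 2 ≤ (N ip f + 1) ^ 2 := fun j =>
    pow_le_pow_left₀ (add_nonneg (N_nonneg _ _) (hμ0 j).le) (by linarith [hμ1 j]) 2
  have h1 : ∃ B : ℝ, ∀ j : ℕ, ip ((1 / ((j : ℝ) + 1)) • v j) ((1 / ((j : ℝ) + 1)) • v j) ≤ B := by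
    refine ⟨(N ip f + 1) ^ 2, fun j => ?_⟩
    have e1 : ip ((1 / ((j : ℝ) + 1)) • v j) ((1 / ((j : ℝ) + 1)) • v j) =
        (1 / ((j : ℝ) + 1)) ^ 2 * ip (v j) (v j) := by
      simp only [map_smul, LinearMap.smul_apply, smul_eq_mul]; ring
    rw [e1]
    have e2 : 0 ≤ 2 * (1 / ((j : ℝ) + 1)) * en (v j) (v j) :=
      mul_nonneg (mul_nonneg zero_le_two (hμ0 j).le) (hp' _)
    linarith [hex2 j, hB2 j, hp (L (v j))]
  have h2 : Tendsto (fun j : ℕ => en ((1 / ((j : ℝ) + 1)) • v j) ((1 / ((j : ℝ) + 1)) • v j)) atTop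
      (𝓝 0) := by
    have e1 : ∀ j : ℕ, en ((1 / ((j : ℝ) + 1)) • v j) ((1 / ((j : ℝ) + 1)) • v j) ≤
        (1 / ((j : ℝ) + 1)) * (N ip f + 1) ^ 2 := by
      intro j
      have e2 : en ((1 / ((j : ℝ) + 1)) • v j) ((1 / ((j : ℝ) + 1)) • v j) =
          (1 / ((j : ℝ) + 1)) * ((1 / ((j : ℝ) + 1)) * en (v j) (v j)) := by
        simp only [map_smul, LinearMap.smul_apply, smul_eq_mul]
      rw [e2]
      refine mul_le_mul_of_nonneg_left ?_ (hμ0 j).le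
      have e3 : 0 ≤ (1 / ((j : ℝ) + 1)) ^ 2 * ip (v j) (v j) := mul_nonneg (sq_nonneg _) (hp _)
      have e4 : 0 ≤ (1 / ((j : ℝ) + 1)) * en (v j) (v j) := mul_nonneg (hμ0 j).le (hp' _)
      linarith [hex2 j, hB2 j, hp (L (v j))]
    have e5 : Tendsto (fun j : ℕ => (1 / ((j : ℝ) + 1)) * (N ip f + 1) ^ 2) atTop (𝓝 0) := by
      have := hlimμ.mul_const ((N ip f + 1) ^ 2)
      rwa [zero_mul] at this
    exact squeeze_zero (fun j => hp' _) e1 e5
  have h3 := hP _ h1 h2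
  have h4 : Tendsto (fun j : ℕ => N ip ((1 / ((j : ℝ) + 1)) • v j)) atTop (𝓝 0) := by
    have := (Real.continuous_sqrt.tendsto 0).comp h3
    rw [Real.sqrt_zero] at this
    exact this
  have h5 : Tendsto (fun j : ℕ => N ip ((1 / ((j : ℝ) + 1)) • v j) + 1 / ((j : ℝ) + 1)) atTop
      (𝓝 0) := by
    have := h4.add hlimμ
    rwa [add_zero] at this
  obtain ⟨j, hj⟩ := (h5.eventually_lt_const (Real.sqrt_pos.2 hδ)).exists
  refine ⟨-v j, ?_⟩
  have h6 : L (-v j) - f = ((1 / ((j : ℝ) + 1)) • v j - L (v j) - f) -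
      (1 / ((j : ℝ) + 1)) • v j := by
    rw [map_neg]; abel
  have h7 : N ip (L (-v j) - f) < Real.sqrt δ := by
    rw [h6]
    exact (N_sub hs hp _ _).trans_lt (by linarith [hv j])
  exact (Real.sqrt_lt_sqrt_iff (hp _)).1 h7

end Vale.Agent.P284.H731.Res
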