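import Vale.Agent.P284.H894.V.V8

/-! # P284, theorem T, row T5, abstract part (helper731) -/

open Filter Set Metric Topology

noncomputable section

namespace Vale.Agent.P284.H731.T

open Vale.Agent.P284.H894.V

open Abs in
/-- the abstract lemma V8 for one `ε` (same constant on both sides) -/
theorem v8e {V : Type} [AddCommGroup V] [Module ℝ V] (ip en : V →ₗ[ℝ] V →ₗ[ℝ] ℝ) (L : V →ₗ[ℝ] V)
    (hs : ∀ f h, ip f h = ip h f) (hp : ∀ f, 0 ≤ ip f f) (hs' : ∀ f h, en f h = en h f)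
    (hp' : ∀ f, 0 ≤ en f f) (hL : ∀ f h, ip (L f) h = -en f h)
    (hD : ∃ l₀ : ℝ, 0 < l₀ ∧ ∀ l, l₀ ≤ l → ∀ f, ∀ δ : ℝ, 0 < δ → ∃ v,
      ip (l • v - L v - f) (l • v - L v - f) < δ)
    (hP : ∀ h : ℕ → V, (∃ B : ℝ, ∀ j, ip (h j) (h j) ≤ B) →
      Tendsto (fun j => en (h j) (h j)) atTop (𝓝 0) →
      ∀ f, Tendsto (fun j => ip (h j) f) atTop (𝓝 0))
    {ε : ℝ} (hε : 0 < ε) (hF : ∃ f, en f f < ε * ip f f) :
    ∃ f, ip (L f) (L f) < ε * en f f := by
  by_contra hcon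
  push Not at hcon
  obtain ⟨l₀, hl₀, hD⟩ := hD
  have hDall : ∀ μ : ℝ, 0 < μ → D ip L μ := by
    intro μ hμ
    exact D_step hs hp hp' hL hμ (le_max_left μ l₀) (D_of (hD _ (le_max_right μ l₀)))
  obtain ⟨f, hf⟩ := hF
  -- the approximate solutions
  have hex : ∀ j : ℕ, ∃ v, N ip ((1 / ((j : ℝ) + 1)) • v - L v - f) < 1 / ((j : ℝ) + 1) := fun j =>
    hDall _ (by positivity) f _ (by positivity)
  choose v hv using hex
  have hμ0 : ∀ j : ℕ, (0 : ℝ) < 1 / ((j : ℝ) + 1) := fun j => by positivity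
  have hμ1 : ∀ j : ℕ, 1 / ((j : ℝ) + 1) ≤ 1 := by
    intro j
    rw [div_le_one (by positivity)]
    have := Nat.cast_nonneg (α := ℝ) j
    linarith
  have hlimμ : Tendsto (fun j : ℕ => 1 / ((j : ℝ) + 1)) atTop (𝓝 0) :=
    tendsto_one_div_add_atTop_nhds_zero_nat
  have hB : ∀ j : ℕ, N ip ((1 / ((j : ℝ) + 1)) • v j - L (v j)) ≤ N ip f + 1 / ((j : ℝ) + 1) := by
    intro j
    have h1 : (1 / ((j : ℝ) + 1)) • v j - L (v j) =
        f + ((1 / ((j : ℝ) + 1)) • v j - L (v j) - f) := by abel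
    rw [h1]
    exact (N_add hs hp _ _).trans (by linarith [hv j])
  have hex2 : ∀ j : ℕ, (1 / ((j : ℝ) + 1)) ^ 2 * ip (v j) (v j) + 2 * (1 / ((j : ℝ) + 1)) *
      en (v j) (v j) + ip (L (v j)) (L (v j)) ≤ (N ip f + 1 / ((j : ℝ) + 1)) ^ 2 := by
    intro j
    rw [← expand hs hL, ← N_sq hp]
    exact pow_le_pow_left₀ (N_nonneg _ _) (hB j) 2
  have hB2 : ∀ j : ℕ, (N ip f + 1 / ((j : ℝ) + 1)) ^ 2 ≤ (N ip f + 1) ^ 2 := fun j =>
    pow_le_pow_left₀ (add_nonneg (N_nonneg _ _) (hμ0 j).le) (by linarith [hμ1 j]) 2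
  have h1 : ∃ B : ℝ, ∀ j : ℕ, ip ((1 / ((j : ℝ) + 1)) • v j) ((1 / ((j : ℝ) + 1)) • v j) ≤ B := by
    refine ⟨(N ip f + 1) ^ 2, fun j => ?_⟩
    have e1 : ip ((1 / ((j : ℝ) + 1)) • v j) ((1 / ((j : ℝ) + 1)) • v j) =
        (1 / ((j : ℝ) + 1)) ^ 2 * ip (v j) (v j) := by
      simp only [map_smul, LinearMap.smul_apply, smul_eq_mul]; ring
    rw [e1]
    have e2 : 0 ≤ 2 * (1 / ((j : ℝ) + 1)) * en (v j) (v j) :=
      mul_nonneg (mul_nonneg zero_le_two (hμ0 j).le) (hp' _)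
    linarith [hex2 j, hB2 j, hp (L (v j))]
  have h2 : Tendsto (fun j : ℕ => en ((1 / ((j : ℝ) + 1)) • v j) ((1 / ((j : ℝ) + 1)) • v j)) atTop
      (𝓝 0) := by
    have e1 : ∀ j : ℕ, en ((1 / ((j : ℝ) + 1)) • v j) ((1 / ((j : ℝ) + 1)) • v j) ≤
        (1 / ((j : ℝ) + 1)) * (N ip f + 1) ^ 2 := by
      intro j
      have e2 : en ((1 / ((j : ℝ) + 1)) • v j) ((1 / ((j : ℝ) + 1)) • v j) =
          (1 / ((j : ℝ) + 1)) * ((1 / ((j : ℝ) + 1)) * en (v j) (v j)) := by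
        simp only [map_smul, LinearMap.smul_apply, smul_eq_mul]
      rw [e2]
      refine mul_le_mul_of_nonneg_left ?_ (hμ0 j).le
      have e3 : 0 ≤ (1 / ((j : ℝ) + 1)) ^ 2 * ip (v j) (v j) := mul_nonneg (sq_nonneg _) (hp _)
      have e4 : 0 ≤ (1 / ((j : ℝ) + 1)) * en (v j) (v j) := mul_nonneg (hμ0 j).le (hp' _)
      linarith [hex2 j, hB2 j, hp (L (v j))]
    have e5 : Tendsto (fun j : ℕ => (1 / ((j : ℝ) + 1)) * (N ip f + 1) ^ 2) atTop (𝓝 0) := by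
      have := hlimμ.mul_const ((N ip f + 1) ^ 2)
      rwa [zero_mul] at this
    exact squeeze_zero (fun j => hp' _) e1 e5
  have h3 := hP _ h1 h2 f
  -- the inequality
  have h4 : ∀ j : ℕ, ip f f ≤ ip ((1 / ((j : ℝ) + 1)) • v j) f +
      (N ip f + 1 / ((j : ℝ) + 1)) / Real.sqrt ε * N en f + 1 / ((j : ℝ) + 1) * N ip f := by
    intro j
    set μ : ℝ := 1 / ((j : ℝ) + 1) with hμ
    have e2 : ip f f = ip (μ • v j) f + en (v j) f - ip (μ • v j - L (v j) - f) f := by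
      have h0 : ip (μ • v j - L (v j) - f) f = ip (μ • v j) f - ip (L (v j)) f - ip f f := by
        rw [map_sub, map_sub, LinearMap.sub_apply, LinearMap.sub_apply]
      rw [h0, hL]; ring
    have e3 : |ip (μ • v j - L (v j) - f) f| ≤ μ * N ip f :=
      (abs_le hs hp _ _).trans (mul_le_mul_of_nonneg_right (hv j).le (N_nonneg _ _))
    have e4 : |en (v j) f| ≤ (N ip f + μ) / Real.sqrt ε * N en f := by
      refine (abs_le hs' hp' _ _).trans (mul_le_mul_of_nonneg_right ?_ (N_nonneg _ _))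
      rw [le_div_iff₀ (Real.sqrt_pos.2 hε)]
      have e5 : (N en (v j) * Real.sqrt ε) ^ 2 ≤ (N ip f + μ) ^ 2 := by
        rw [mul_pow, N_sq hp', Real.sq_sqrt hε.le]
        have e6 := hcon (v j)
        have e7 : 0 ≤ μ ^ 2 * ip (v j) (v j) := mul_nonneg (sq_nonneg _) (hp _)
        have e8 : 0 ≤ 2 * μ * en (v j) (v j) :=
          mul_nonneg (mul_nonneg zero_le_two (hμ0 j).le) (hp' _)
        linarith [hex2 j]
      exact (pow_le_pow_iff_left₀ (mul_nonneg (N_nonneg _ _) (Real.sqrt_nonneg _))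
        (add_nonneg (N_nonneg _ _) (hμ0 j).le) two_ne_zero).1 e5
    rw [e2]
    have := neg_le_of_abs_le e3
    have := le_of_abs_le e4
    linarith
  have h5 : ip f f ≤ N ip f / Real.sqrt ε * N en f := by
    have hlim : Tendsto (fun j : ℕ => ip ((1 / ((j : ℝ) + 1)) • v j) f +
        (N ip f + 1 / ((j : ℝ) + 1)) / Real.sqrt ε * N en f + 1 / ((j : ℝ) + 1) * N ip f) atTop
        (𝓝 (0 + (N ip f + 0) / Real.sqrt ε * N en f + 0 * N ip f)) :=
      (h3.add (((hlimμ.const_add _).div_const _).mul_const _)).add (hlimμ.mul_const _)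
    have := ge_of_tendsto' hlim h4
    simpa using this
  have h6 : 0 ≤ N ip f := N_nonneg _ _
  rcases h6.eq_or_lt with h7 | h7
  · have : ip f f = 0 := by rw [← N_sq hp, ← h7]; ring
    rw [this, mul_zero] at hf
    exact absurd (hp' f) (not_le.2 hf)
  · rw [← N_sq hp] at h5 hf
    have h8 : N ip f ≤ N en f / Real.sqrt ε := by
      have e1 : N ip f * N ip f ≤ N ip f * (N en f / Real.sqrt ε) := by
        calc N ip f * N ip f = N ip f ^ 2 := by ring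
          _ ≤ _ := h5
          _ = _ := by ring
      exact le_of_mul_le_mul_left e1 h7
    rw [le_div_iff₀ (Real.sqrt_pos.2 hε)] at h8
    have h9 : (N ip f * Real.sqrt ε) ^ 2 ≤ N en f ^ 2 :=
      pow_le_pow_left₀ (mul_nonneg h7.le (Real.sqrt_nonneg _)) h8 2
    rw [mul_pow, Real.sq_sqrt hε.le, N_sq hp'] at h9
    linarith

end Vale.Agent.P284.H731.T
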