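import Vale.Agent.P284.H409.T.Spec
import Vale.Agent.P284.H731.T5a

/-! # P284, theorem T, row T5 (helper731) -/

open Filter Set Metric Topology

noncomputable section

namespace Vale.Agent.P284.H731.T

/-- **T5** -/
theorem t5Stmt : Vale.Agent.P284.H409.T.T5Stmt := by
  intro V _ _ ip en L hs hp hs' hp' hL hD hP ε hε hF
  exact v8e ip en L hs hp hs' hp' hL hD hP hε hF

end Vale.Agent.P284.H731.T
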