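import Vale.Agent.P284.H465.V17
import Vale.Agent.P284.H5.V16C
import Vale.Agent.P211.HK.LocSys
import Vale.Agent.P281.MF.Hol

/-!
# P284, theorem on finite order maps, block S2 (helper731): the conjugate of a pluriharmonic function
on a simply connected covering space
-/

open scoped Manifold ContDiff Topology Pointwise ComplexConjugate
open Filter Set Metric

noncomputable section

namespace Vale.Agent.P284.H731.S2

open Vale.Agent.P272.K Vale.Agent.P284.H894.V Vale.Agent.P284.H465.V17

section loc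
variable {n : ℕ}

/-- a holomorphic function is smooth -/
theorem holo_contDiffAt {h : Cm n → ℂ} {z : Cm n} (hh : ∀ᶠ y in 𝓝 z, DifferentiableAt ℂ h y) :
    ContDiffAt ℂ ω h z := by
  obtain ⟨r, hr, hball⟩ := Metric.eventually_nhds_iff_ball.1 hh
  exact (Vale.Agent.P281.MF.analyticAt_of_differentiableOn isOpen_ball
    (fun y hy => (hball y hy).differentiableWithinAt) (mem_ball_self hr)).contDiffAt

theorem im_contDiffAt {h : Cm n → ℂ} {z : Cm n} (hh : ∀ᶠ y in 𝓝 z, DifferentiableAt ℂ h y) :
    ContDiffAt ℝ ∞ (fun y => (h y).im) z :=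
  Complex.imCLM.contDiff.contDiffAt.comp z (((holo_contDiffAt hh).restrict_scalars ℝ).of_le
    (by exact_mod_cast le_top))

theorem cHess_im {h : Cm n → ℂ} {z : Cm n} (hh : ∀ᶠ y in 𝓝 z, DifferentiableAt ℂ h y) :
    cHess (fun y => (h y).im) z = 0 := by
  ext i j
  rw [cHess_apply]
  have hC : ContDiffAt ℝ ∞ h z := ((holo_contDiffAt hh).restrict_scalars ℝ).of_le
    (by exact_mod_cast le_top)
  have h1 : (fun y => (((h y).im : ℝ) : ℂ)) =
      fun y => (-Complex.I / 2) * h y + (Complex.I / 2) * cj (h y) := by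
    funext y
    apply Complex.ext <;> simp [cj] <;> ring
  have h2 : dzb j (fun y => (((h y).im : ℝ) : ℂ)) =ᶠ[𝓝 z]
      fun y => (Complex.I / 2) * cj (dz j h y) := by
    rw [h1]
    filter_upwards [hh] with y hy
    have hyr : DifferentiableAt ℝ h y := hy.restrictScalars ℝ
    have hyc : DifferentiableAt ℝ (fun y => cj (h y)) y :=
      (Complex.conjCLE.toContinuousLinearMap.differentiableAt).comp y hyr
    have d1 : DifferentiableAt ℝ (fun y => (-Complex.I / 2) * h y) y := hyr.const_mul _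
    have d2 : DifferentiableAt ℝ (fun y => (Complex.I / 2) * cj (h y)) y := hyc.const_mul _
    rw [dzb_add d1 d2]
    have e0 : DifferentiableAt ℂ (fun y => (-Complex.I / 2) * h y) y := hy.const_mul _
    have e1 : dzb j (fun y => (-Complex.I / 2) * h y) y = 0 := dzb_of_holo e0
    have e2 : dzb j (fun y => (Complex.I / 2) * cj (h y)) y = (Complex.I / 2) * cj (dz j h y) := by
      rw [dzb_const_mul _ hyc, dzb_cj hyr]
    rw [e1, e2, zero_add]
  rw [dz_congr h2]
  have hd : DifferentiableAt ℝ (dz j h) z :=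
    (contDiffAt_dz (m := ∞) (r := ∞) hC le_rfl).differentiableAt (by simp)
  have hdc : DifferentiableAt ℝ (fun y => cj (dz j h y)) z :=
    (Complex.conjCLE.toContinuousLinearMap.differentiableAt).comp z hd
  rw [dz_const_mul _ hdc, dz_cj hd, ← dz_dzb_comm (hC.of_le
    (show ((2 : ℕ∞) : WithTop ℕ∞) ≤ ((⊤ : ℕ∞) : WithTop ℕ∞) from WithTop.coe_le_coe.2 le_top))]
  have h3 : dzb i h =ᶠ[𝓝 z] fun _ => 0 := by
    filter_upwards [hh] with y hy using dzb_of_holo hy
  rw [dz_congr h3, dz_const]
  simp [cj]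

end loc

section
variable {n : ℕ} {X : Type} [TopologicalSpace X] [ChartedSpace (Cm n) X]
  {E : Type} [TopologicalSpace E] {p : E → X} {w : Chart n X → Cm n → Matrix (Fin n) (Fin n) ℂ}
  {u v : E → ℝ} {B : ℝ}

/-- `u + i v` is holomorphic near `y` (in every chart of `X` at `p y`). -/
def Par (n : ℕ) {X : Type} [TopologicalSpace X] [ChartedSpace (Cm n) X]
    {E : Type} [TopologicalSpace E] (p : E → X) (u : E → ℝ) (y : E) (v : E → ℝ) : Prop :=
  ∀ e : Chart n X, At e (p y) → ∃ h : Cm n → ℂ,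
    (∀ᶠ z in 𝓝 (e (p y)), DifferentiableAt ℂ h z) ∧
      ∀ᶠ y' in 𝓝 y, (u y' : ℂ) + (v y' : ℂ) * Complex.I = h (e (p y'))

/-- `u + i v` is holomorphic. -/
def Conj (n : ℕ) {X : Type} [TopologicalSpace X] [ChartedSpace (Cm n) X]
    {E : Type} [TopologicalSpace E] (p : E → X) (u v : E → ℝ) : Prop :=
  ∀ y, Par n p u y v

theorem tend (hp : IsCoveringMap p) {y : E} {e : Chart n X} (he : At e (p y)) :
    Tendsto (fun y' => e (p y')) (𝓝 y) (𝓝 (e (p y))) := (map_chart hp he).le

theorem src (hp : IsCoveringMap p) {y : E} {e : Chart n X} (he : At e (p y)) :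
    ∀ᶠ y' in 𝓝 y, At e (p y') := by
  filter_upwards [hp.continuous.continuousAt.eventually (e.open_source.mem_nhds he.2)] with y' hy'
  exact ⟨he.1, hy'⟩

variable [IsManifold 𝓘(ℂ, Cm n) ω X]

/-- one chart is enough -/
theorem par_of (hp : IsCoveringMap p) {y : E} {e : Chart n X} (he : At e (p y)) {h : Cm n → ℂ}
    (hh : ∀ᶠ z in 𝓝 (e (p y)), DifferentiableAt ℂ h z)
    (hu : ∀ᶠ y' in 𝓝 y, (u y' : ℂ) + (v y' : ℂ) * Complex.I = h (e (p y'))) :
    Par n p u y v := by
  intro e' he'
  refine ⟨fun z => h (e (e'.symm z)), ?_, ?_⟩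
  · have h1 := he'.nhds_at he
    have h2 : Tendsto (fun z => e (e'.symm z)) (𝓝 (e' (p y))) (𝓝 (e (p y))) := by
      have := (transition he' he).continuousAt.tendsto
      simpa only [he'.left_inv] using this
    filter_upwards [h1, h2.eventually hh] with z hz hz'
    have h3 : DifferentiableAt ℂ (fun z => e (e'.symm z)) z := by
      have h4 := transition_differentiableAt hz.2.1 hz.2.2
      rwa [e'.right_inv hz.1] at h4
    exact DifferentiableAt.comp z hz' h3
  · filter_upwards [hu, src hp he'] with y' h1 h2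
    rw [h1]
    show h (e (p y')) = h (e (e'.symm (e' (p y'))))
    rw [h2.left_inv]

omit [IsManifold 𝓘(ℂ, Cm n) ω X] in
/-- The difference of two conjugates is locally constant. -/
theorem par_sub (hp : IsCoveringMap p) {y : E} {s s' : E → ℝ} (hs : Par n p u y s)
    (hs' : Par n p u y s') : ∀ᶠ q in 𝓝 y, s q - s' q = s y - s' y := by
  have he : At (chartAt (Cm n) (p y)) (p y) := at_chart _
  set e := chartAt (Cm n) (p y) with he0
  obtain ⟨h, h1, h2⟩ := hs e he
  obtain ⟨h', h1', h2'⟩ := hs' e he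
  have h3 : ∀ᶠ z in 𝓝 (e (p y)), (Complex.I * (h z - h' z)).im = 0 := by
    rw [← map_chart hp he, eventually_map]
    filter_upwards [h2, h2'] with q hq hq'
    rw [← hq, ← hq']
    simp
  have h4 : ∀ᶠ z in 𝓝 (e (p y)), (h z - h' z).re = 0 := by
    filter_upwards [h3] with z hz
    simpa using hz
  obtain ⟨r, hr, hb⟩ := Metric.eventually_nhds_iff_ball.1 (h1.and (h1'.and h4))
  have h5 : ∀ z ∈ ball (e (p y)) r, h z - h' z = h (e (p y)) - h' (e (p y)) := by
    intro z hz
    exact Vale.Agent.P301.H949.const_of_re_zero (D := fun z => h z - h' z) isOpen_ball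
      (convex_ball _ _)
      (fun x hx => ((hb x hx).1.sub (hb x hx).2.1).differentiableWithinAt)
      (fun x hx => (hb x hx).2.2) hz (mem_ball_self hr)
  have h6 : ∀ᶠ q in 𝓝 y, e (p q) ∈ ball (e (p y)) r :=
    (tend hp he).eventually (ball_mem_nhds _ hr)
  filter_upwards [h2, h2', h6] with q hq hq' hqb
  have h7 := h5 _ hqb
  have h8 := h2.self_of_nhds
  have h8' := h2'.self_of_nhds
  rw [← hq, ← hq', ← h8, ← h8'] at h7
  have h9 := congrArg Complex.im h7
  simpa using h9

theorem locSys (hp : IsCoveringMap p) (hu : IsPHB p w u B) :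
    Vale.Agent.P211.HK.LocSys (X := E) (F := fun _ => ℝ) (Par n p u) where
  opn y s hs := by
    have he : At (chartAt (Cm n) (p y)) (p y) := at_chart _
    set e := chartAt (Cm n) (p y) with he0
    obtain ⟨h, h1, h2⟩ := hs e he
    filter_upwards [src hp he, h2.eventually_nhds, (tend hp he).eventually h1.eventually_nhds]
      with q hq hq2 hq3
    exact par_of hp hq hq3 hq2
  uniq y s s' hs hs' h := by
    filter_upwards [par_sub hp hs hs'] with q hq
    rw [h, sub_self] at hq
    linarith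
  clo y s s' hs hs' h := by
    obtain ⟨q, hq, hq'⟩ := (h.and_eventually (par_sub hp hs hs')).exists
    rw [hq, sub_self] at hq'
    linarith
  loc y s s' hs h := by
    intro e he
    obtain ⟨g, h1, h2⟩ := hs e he
    refine ⟨g, h1, ?_⟩
    filter_upwards [h, h2] with q hq hq2
    rw [← hq, hq2]
  ext y := by
    have he : At (chartAt (Cm n) (p y)) (p y) := at_chart _
    set e := chartAt (Cm n) (p y) with he0
    obtain ⟨g, hug, hg, -⟩ := hu y e he
    obtain ⟨r, hr, hb⟩ := Metric.eventually_nhds_iff_ball.1 hg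
    obtain ⟨F, hF, hFr⟩ := Vale.Agent.P301.H949.exists_re (U := ball (e (p y)) r) isOpen_ball
      (convex_ball _ _) (fun z hz => (hb z hz).1.of_le
        (show ((2 : ℕ∞) : WithTop ℕ∞) ≤ ((⊤ : ℕ∞) : WithTop ℕ∞) from WithTop.coe_le_coe.2 le_top))
      (fun z hz => (hb z hz).2)
    have hU : ∀ᶠ q in 𝓝 y, At e (p q) ∧ u q = g (e (p q)) ∧ e (p q) ∈ ball (e (p y)) r :=
      (src hp he).and (hug.and ((tend hp he).eventually (ball_mem_nhds _ hr)))
    obtain ⟨U, hU1, hU2, hU3⟩ := eventually_nhds_iff.1 hU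
    refine ⟨U, hU2.mem_nhds hU3, fun q hq c => ?_⟩
    refine ⟨fun q' => (F (e (p q'))).im + (c - (F (e (p q))).im), by ring, fun q' hq' => ?_⟩
    obtain ⟨ha, hb1, hc⟩ := hU1 q' hq'
    refine par_of hp ha (h := fun z => F z + ((c - (F (e (p q))).im : ℝ) : ℂ) * Complex.I) ?_ ?_
    · filter_upwards [isOpen_ball.mem_nhds hc] with z hz
      exact (hF.differentiableAt (isOpen_ball.mem_nhds hz)).add_const _
    · filter_upwards [hU2.mem_nhds hq'] with x hx
      obtain ⟨-, hx1, hx2⟩ := hU1 x hx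
      rw [hx1, ← hFr _ hx2]
      apply Complex.ext
      · simp
      · simp

/-- **Existence of the conjugate function.** -/
theorem exists_conj [SimplyConnectedSpace E] [LocallyPathConnectedSpace E] (hp : IsCoveringMap p)
    (hu : IsPHB p w u B) : ∃ v, Conj n p u v := by
  obtain ⟨y₀⟩ : Nonempty E := inferInstance
  obtain ⟨s, ⟨-, hs⟩, -⟩ := (locSys hp hu).existsUnique y₀ (0 : ℝ)
  exact ⟨s, hs⟩

omit [IsManifold 𝓘(ℂ, Cm n) ω X] in
/-- Two conjugates differ by a constant. -/
theorem conj_unique [ConnectedSpace E] (hp : IsCoveringMap p) {v v' : E → ℝ}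
    (hv : Conj n p u v) (hv' : Conj n p u v') (y y' : E) : v y - v' y = v y' - v' y' := by
  have hopen : ∀ c : ℝ, IsOpen {q : E | v q - v' q = c} := by
    intro c
    rw [isOpen_iff_mem_nhds]
    intro q hq
    have hq0 : v q - v' q = c := hq
    filter_upwards [par_sub hp (hv q) (hv' q)] with x hx
    show v x - v' x = c
    rw [hx, hq0]
  have hcl : IsClosed {q : E | v q - v' q = v y' - v' y'} := by
    have h1 : {q : E | v q - v' q = v y' - v' y'}ᶜ =
        ⋃ c : {c : ℝ // c ≠ v y' - v' y'}, {q : E | v q - v' q = c.1} := by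
      ext q
      simp only [mem_compl_iff, Set.mem_ofPred_eq, mem_iUnion, Subtype.exists, exists_prop,
        exists_eq_right']
    rw [← isOpen_compl_iff, h1]
    exact isOpen_iUnion fun c => hopen c.1
  have h2 := IsClopen.eq_univ ⟨hcl, hopen _⟩ ⟨y', rfl⟩
  have h3 : y ∈ {q : E | v q - v' q = v y' - v' y'} := h2 ▸ mem_univ y
  exact h3

omit [IsManifold 𝓘(ℂ, Cm n) ω X] in
/-- The conjugate is pluriharmonic with the same gradient bound. -/
theorem conj_phb (hp : IsCoveringMap p) (hu : IsPHB p w u B) (hv : Conj n p u v) :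
    IsPHB p w v B := by
  intro y e he
  obtain ⟨h, h1, h2⟩ := hv y e he
  obtain ⟨g, hg1, hg2, hg3⟩ := hu y e he
  refine ⟨fun z => (h z).im, ?_, ?_, ?_⟩
  · filter_upwards [h2] with q hq
    show v q = (h (e (p q))).im
    rw [← hq]
    simp
  · filter_upwards [h1.eventually_nhds] with z hz
    exact ⟨im_contDiffAt hz, cHess_im hz⟩
  · intro ξ
    have hgr : g =ᶠ[𝓝 (e (p y))] fun z => (h z).re := by
      have : ∀ᶠ z in 𝓝 (e (p y)), g z = (h z).re := by
        rw [← map_chart hp he, eventually_map]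
        filter_upwards [hg1, h2] with q hq hq2
        rw [← hq, ← hq2]
        simp
      exact this
    have hd := h1.self_of_nhds
    have hdr : HasFDerivAt h ((fderiv ℂ h (e (p y))).restrictScalars ℝ) (e (p y)) :=
      hd.hasFDerivAt.restrictScalars ℝ
    have e1 : fderiv ℝ (fun z => (h z).im) (e (p y)) ξ = (fderiv ℂ h (e (p y)) ξ).im := by
      have := (Complex.imCLM.hasFDerivAt.comp (e (p y)) hdr).fderiv
      have h3 : fderiv ℝ (fun z => (h z).im) (e (p y)) = Complex.imCLM.comp
        ((fderiv ℂ h (e (p y))).restrictScalars ℝ) := this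
      rw [h3]
      rfl
    have e2 : fderiv ℝ g (e (p y)) (Complex.I • ξ) = (fderiv ℂ h (e (p y)) (Complex.I • ξ)).re := by
      rw [hgr.fderiv_eq]
      have := (Complex.reCLM.hasFDerivAt.comp (e (p y)) hdr).fderiv
      have h3 : fderiv ℝ (fun z => (h z).re) (e (p y)) = Complex.reCLM.comp
        ((fderiv ℂ h (e (p y))).restrictScalars ℝ) := this
      rw [h3]
      rfl
    have e3 : fderiv ℝ g (e (p y)) (Complex.I • ξ) = -(fderiv ℂ h (e (p y)) ξ).im := by
      rw [e2, map_smul]
      simp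
    have e4 := hg3 (Complex.I • ξ)
    rw [e3, neg_sq] at e4
    rw [e1]
    refine e4.trans (le_of_eq ?_)
    congr 2
    refine Finset.sum_congr rfl fun j _ => Finset.sum_congr rfl fun k _ => ?_
    simp only [Pi.smul_apply, smul_eq_mul, map_mul, Complex.conj_I]
    have : w e (e (p y)) j k * (Complex.I * ξ j) * (-Complex.I * conj (ξ k)) =
      -(Complex.I * Complex.I) * (w e (e (p y)) j k * ξ j * conj (ξ k)) := by ring
    rw [this, Complex.I_mul_I]
    ring

end

end Vale.Agent.P284.H731.S2
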