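import Mathlib.GroupTheory.Finiteness
import Mathlib.GroupTheory.Index
import Mathlib.GroupTheory.Schreier
import Mathlib.LinearAlgebra.FreeModule.PID
import Mathlib.LinearAlgebra.Dimension.Free
import Mathlib.LinearAlgebra.FreeModule.StrongRankCondition
import Mathlib.RingTheory.Int.Basic
import Mathlib.Data.Real.Basic
import Mathlib.RingTheory.PrincipalIdealDomain

/-!
# P284, theorem W, block WALB (helper731): integral coordinates of an additive map
-/

noncomputable section

namespace Vale.Agent.P284.H731.Alb

/-- An additive map from a finitely generated group to a real vector space has integral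
coordinates. -/
theorem exists_int_coords {H : Type*} [Group H] [Group.FG H] {M : Type*} [AddCommGroup M]
    [Module ℝ M] (c : H → M) (hc : ∀ g h, c (g * h) = c g + c h) :
    ∃ (r : ℕ) (b : Fin r → M) (χ : Fin r → (H →* Multiplicative ℤ)),
      ∀ h, c h = ∑ k, ((Multiplicative.toAdd (χ k h) : ℤ) : ℝ) • b k := by
  let f : Additive H →+ M := AddMonoidHom.mk' (fun g => c g.toMul) fun a b => hc _ _
  have : AddGroup.FG (Additive H) := by
    rw [← GroupFG.iff_add_fg]
    infer_instance
  have h1 : AddGroup.FG f.range := AddGroup.fg_range f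
  have h2 : Module.Finite ℤ f.range := Module.Finite.iff_addGroup_fg.2 h1
  have h0 : IsAddTorsionFree M := ⟨fun n hn a b hab => by
    have h3 : ((n : ℕ) : ℝ) • a = (n : ℝ) • b := by
      rw [Nat.cast_smul_eq_nsmul, Nat.cast_smul_eq_nsmul]
      exact hab
    exact smul_right_injective M (by exact_mod_cast hn : ((n : ℕ) : ℝ) ≠ 0) h3⟩
  have h3 : Module.IsTorsionFree ℤ M := inferInstance
  have h4 : Module.Free ℤ f.range := Module.free_of_finite_type_torsion_free'
  let B := Module.finBasis ℤ f.range
  let m : H → f.range := fun h => ⟨f (Additive.ofMul h), ⟨_, rfl⟩⟩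
  have hm : ∀ g h, m (g * h) = m g + m h := fun g h => Subtype.ext (hc g h)
  refine ⟨Module.finrank ℤ f.range, fun k => (B k : M), fun k =>
    MonoidHom.mk' (fun h => Multiplicative.ofAdd (B.repr (m h) k)) ?_, ?_⟩
  · intro g h
    rw [hm, map_add, Finsupp.add_apply, ofAdd_add]
  · intro h
    have h5 := congrArg Subtype.val (B.sum_repr (m h))
    show (m h : M) = _
    rw [← h5]
    push_cast
    refine Finset.sum_congr rfl fun k _ => ?_
    show _ = (((B.repr (m h) k : ℤ)) : ℝ) • (B k : M)
    rw [Int.cast_smul_eq_zsmul]

end Vale.Agent.P284.H731.Alb
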