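import Vale.Agent.P284.H731.Alb1
import Vale.Agent.P284.H731.AlbGrp
import Vale.Agent.P284.H446.S1
import Vale.Agent.P284.H639.V15
import Vale.Agent.P284.H639.FO
import Vale.Agent.P284.H894.W.Spec2
import Mathlib.LinearAlgebra.Basis.VectorSpace

/-!
# P284, theorem W, block WALB (helper731): the Albanese map of a covering with maximal Betti number
-/

open scoped Manifold ContDiff Topology Pointwise ComplexConjugate ComplexOrder
open Filter Set Metric

noncomputable section

namespace Vale.Agent.P284.H731.Alb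

open Vale.Agent.P272.K Vale.Agent.P284.H894.V Vale.Agent.P284.H465.V17 Vale.Agent.P284.H894.G
  Vale.Agent.P284.H731.S2 Vale.Agent.P284.H5.V Vale.Agent.P284.H894.W

section
variable {n : ℕ} {X : Type} [TopologicalSpace X] [ChartedSpace (Cm n) X]
  {E : Type} [TopologicalSpace E] {p : E → X} {w : Chart n X → Cm n → Matrix (Fin n) (Fin n) ℂ}
  {u v : E → ℝ} {B : ℝ} {Γ : Type} [Group Γ] [MulAction Γ E] {N : ℕ}

/-- the holomorphic function with given real and imaginary part has bounded derivative -/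
theorem hol_bound (hp : IsCoveringMap p) {A A' : ℝ} (hu : IsPHB p w u A) (hv : IsPHB p w v A')
    {y : E} {e : Chart n X} (he : At e (p y)) {h : Cm n → ℂ}
    (hh : ∀ᶠ z in 𝓝 (e (p y)), DifferentiableAt ℂ h z)
    (hc : ∀ᶠ y' in 𝓝 y, (u y' : ℂ) + (v y' : ℂ) * Complex.I = h (e (p y'))) (x : Cm n) :
    ‖fderiv ℂ h (e (p y)) x‖ ^ 2 ≤
      (A + A') * (∑ j, ∑ k, w e (e (p y)) j k * x j * conj (x k)).re := by
  obtain ⟨g, hg1, -, hg3⟩ := hu y e he
  obtain ⟨k, hk1, -, hk3⟩ := hv y e he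
  have hd : DifferentiableAt ℝ h (e (p y)) := hh.self_of_nhds.restrictScalars ℝ
  have hfr : fderiv ℝ h (e (p y)) x = fderiv ℂ h (e (p y)) x := by
    rw [hh.self_of_nhds.fderiv_restrictScalars ℝ]
    rfl
  have h1 : g =ᶠ[𝓝 (e (p y))] fun z => (h z).re := by
    have : ∀ᶠ z in 𝓝 (e (p y)), g z = (h z).re := by
      rw [← map_chart hp he, eventually_map]
      filter_upwards [hg1, hc] with q h1 h2
      rw [← h1, ← h2]
      simp
    exact this
  have h2 : k =ᶠ[𝓝 (e (p y))] fun z => (h z).im := by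
    have : ∀ᶠ z in 𝓝 (e (p y)), k z = (h z).im := by
      rw [← map_chart hp he, eventually_map]
      filter_upwards [hk1, hc] with q h1 h2
      rw [← h1, ← h2]
      simp
    exact this
  have h3 : fderiv ℝ g (e (p y)) x = (fderiv ℂ h (e (p y)) x).re := by
    rw [h1.fderiv_eq, ← hfr]
    have := (Complex.reCLM.hasFDerivAt.comp (e (p y)) hd.hasFDerivAt).fderiv
    have h4 : fderiv ℝ (fun z => (h z).re) (e (p y)) =
      Complex.reCLM.comp (fderiv ℝ h (e (p y))) := this
    rw [h4]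
    rfl
  have h4 : fderiv ℝ k (e (p y)) x = (fderiv ℂ h (e (p y)) x).im := by
    rw [h2.fderiv_eq, ← hfr]
    have := (Complex.imCLM.hasFDerivAt.comp (e (p y)) hd.hasFDerivAt).fderiv
    have h4 : fderiv ℝ (fun z => (h z).im) (e (p y)) =
      Complex.imCLM.comp (fderiv ℝ h (e (p y))) := this
    rw [h4]
    rfl
  have h5 := hg3 x
  have h6 := hk3 x
  rw [h3] at h5
  rw [h4] at h6
  rw [Complex.sq_norm, Complex.normSq_apply]
  nlinarith

/-- **HolB** for a vector of holomorphic functions. -/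
theorem holB_of (hw : IsHermitian w) (hp : IsCoveringMap p) {F : E → Cm N}
    (hF : ∀ j, (∃ B, IsPHB p w (fun y => (F y j).re) B) ∧ (∃ B, IsPHB p w (fun y => (F y j).im) B) ∧
      Conj n p (fun y => (F y j).re) (fun y => (F y j).im)) : ∃ B, HolB p w F B := by
  choose A A' hC using hF
  choose B hB using A
  choose B' hB' using A'
  refine ⟨∑ j, (|B j| + |B' j|), fun y e he => ?_⟩
  have h1 := fun j => hC j y e he
  choose h hh hc using h1
  have hw0 : ∀ x : Cm n, 0 ≤ (∑ j, ∑ k, w e (e (p y)) j k * x j * conj (x k)).re :=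
    fun x => qf_nonneg (hw.posDef _ _ he) x
  refine ⟨fun z j => h j z, ?_, ?_, fun x => ?_⟩
  · have h2 : ∀ᶠ y' in 𝓝 y, ∀ j, ((F y' j).re : ℂ) + ((F y' j).im : ℂ) * Complex.I = h j (e (p y')) :=
      eventually_all.2 hc
    filter_upwards [h2] with y' h3
    funext j
    rw [← h3 j, Complex.re_add_im]
  · have h2 := eventually_all.2 hh
    filter_upwards [h2] with z h3
    exact differentiableAt_pi.2 h3
  · have h2 : ∀ j, DifferentiableAt ℂ (h j) (e (p y)) := fun j => (hh j).self_of_nhds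
    have h3 : ∀ j, fderiv ℂ (fun z j => h j z) (e (p y)) x j = fderiv ℂ (h j) (e (p y)) x := by
      intro j
      rw [fderiv_pi h2]
      rfl
    have h4 : ∀ j, ‖fderiv ℂ (h j) (e (p y)) x‖ ^ 2 ≤
        (∑ j, (|B j| + |B' j|)) * (∑ j, ∑ k, w e (e (p y)) j k * x j * conj (x k)).re := by
      intro j
      refine (hol_bound hp (hB j) (hB' j) he (hh j) (hc j) x).trans ?_
      refine mul_le_mul_of_nonneg_right ?_ (hw0 x)
      refine (add_le_add (le_abs_self _) (le_abs_self _)).trans ?_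
      exact Finset.single_le_sum (f := fun j => |B j| + |B' j|) (fun j _ => by positivity)
        (Finset.mem_univ j)
    have h5 : 0 ≤ (∑ j, (|B j| + |B' j|)) *
        (∑ j, ∑ k, w e (e (p y)) j k * x j * conj (x k)).re :=
      mul_nonneg (Finset.sum_nonneg fun j _ => by positivity) (hw0 x)
    rw [← Real.le_sqrt (norm_nonneg _) h5]
    refine (pi_norm_le_iff_of_nonneg (Real.sqrt_nonneg _)).2 fun j => ?_
    rw [h3 j]
    exact Real.le_sqrt_of_sq_le (h4 j)

end

/-- The functional with coefficients `a`. -/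
theorem functional_eq {N : ℕ} (l : Cm N →ₗ[ℝ] ℝ) : ∃ a : Fin N → ℂ, ∀ z : Cm N,
    l z = (∑ j, a j * z j).re := by
  refine ⟨fun j => (l (Pi.single j 1) : ℂ) - (l (Pi.single j Complex.I) : ℂ) * Complex.I,
    fun z => ?_⟩
  have h1 : z = ∑ j, ((z j).re • (Pi.single j 1 : Cm N) + (z j).im • (Pi.single j Complex.I : Cm N)) := by
    funext k
    rw [Finset.sum_apply, Finset.sum_eq_single k]
    · simp
    · intro b _ hb
      simp [Pi.single_eq_of_ne (Ne.symm hb)]
    · intro h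
      exact absurd (Finset.mem_univ k) h
  conv_lhs => rw [h1]
  rw [map_sum, Complex.re_sum]
  refine Finset.sum_congr rfl fun j _ => ?_
  rw [map_add, map_smul, map_smul]
  simp
  ring

/-- **WALB2**, from the Hodge theorem `S1`. -/
theorem albStmt2_of (hS1 : Vale.Agent.P284.H446.V.S1Stmt) : AlbStmt2 := by
  intro n X _ _ _ _ _ _ w hw Φ hΦ E Γ _ _ _ _ p hG
  obtain ⟨_, _, _, hfg, -⟩ := Vale.Agent.P284.H639.V.v15Stmt n X w hw E Γ p hG
  obtain ⟨V, hVfd, hV⟩ := v16Stmt n X w hw.toIsHermitian E p hG.cov hG.surj Φ hΦ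
  have hVeq : V = phb p w := Submodule.ext fun u => hV u
  have : FiniteDimensional ℝ (phb p w) := hVeq ▸ hVfd
  have : FiniteDimensional ℝ (V0 p w Γ) :=
    Submodule.finiteDimensional_of_le (inf_le_left : V0 p w Γ ≤ phb p w)
  obtain ⟨y₀⟩ : Nonempty E := inferInstance
  obtain ⟨G, hGfi, hGc⟩ := exists_subgroup (p := p) (w := w) (Γ := Γ)
  have := finite_H0 (p := p) (w := w) (Γ := Γ) y₀
  let b := Module.finBasis ℂ (H0 p w Γ y₀)
  let F : E → Cm (Module.finrank ℂ (H0 p w Γ y₀)) := fun y j => (b j : E → ℂ) y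
  have hb : ∀ j, (fun y => (F y j).re) ∈ V0 p w Γ ∧ (fun y => (F y j).im) ∈ V0 p w Γ ∧
    Conj n p (fun y => (F y j).re) (fun y => (F y j).im) ∧ F y₀ j = 0 := fun j => mem_H0.1 (b j).2
  have hF0 : F y₀ = 0 := funext fun j => (hb j).2.2.2
  let c : Γ → Cm (Module.finrank ℂ (H0 p w Γ y₀)) := fun g => F (g • y₀)
  have hequiv : ∀ g ∈ G, ∀ y, F (g • y) = F y + c g := by
    intro g hg y
    funext j
    obtain ⟨r, hr⟩ := hGc _ (hb j).1 g hg
    obtain ⟨s, hs⟩ := hGc _ (hb j).2.1 g hg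
    have h1 : (F y₀ j).re = 0 := by rw [hF0]; rfl
    have h2 : (F y₀ j).im = 0 := by rw [hF0]; rfl
    have h3 : ((F (g • y₀) j).re) = r := by
      rw [show ((F (g • y₀) j).re) = (F y₀ j).re + r from hr y₀, h1, zero_add]
    have h4 : ((F (g • y₀) j).im) = s := by
      rw [show ((F (g • y₀) j).im) = (F y₀ j).im + s from hs y₀, h2, zero_add]
    apply Complex.ext
    · show (F (g • y) j).re = (F y j + F (g • y₀) j).re
      rw [Complex.add_re, h3]
      exact hr y
    · show (F (g • y) j).im = (F y j + F (g • y₀) j).im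
      rw [Complex.add_im, h4]
      exact hs y
  have hadd : ∀ g ∈ G, ∀ h ∈ G, c (g * h) = c g + c h := by
    intro g hg h hh
    show F ((g * h) • y₀) = _
    rw [mul_smul, hequiv g hg, add_comm]
  have hrep : ∀ u ∈ V0 p w Γ, ∃ a : Fin (Module.finrank ℂ (H0 p w Γ y₀)) → ℂ,
      ∀ y, u y = (∑ j, a j * F y j).re + u y₀ := by
    intro u hu
    obtain ⟨⟨B, hB⟩, G', hG', hc⟩ := mem_V0.1 hu
    obtain ⟨v, hv1, hv2⟩ := s2 hG.cov hB
    have hv : v ∈ V0 p w Γ := mem_V0.2 ⟨⟨B, hv1⟩, G', hG', fun g hg => by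
      obtain ⟨r, hr⟩ := hc g hg
      exact conj_periods hG hv2 g hr⟩
    have hone : (fun _ : E => (1 : ℝ)) ∈ V0 p w Γ := by
      refine mem_V0.2 ⟨⟨0, fun y e he => ⟨fun _ => 1, Eventually.of_forall fun _ => rfl,
        Eventually.of_forall fun z => ⟨contDiffAt_const, ?_⟩, fun x => ?_⟩⟩, ⊤, inferInstance,
        fun g _ => ⟨0, fun y => (add_zero _).symm⟩⟩
      · ext j k
        rw [cHess_apply]
        have : dzb k (fun _ : Cm n => ((1 : ℝ) : ℂ)) = fun _ => 0 := funext fun y => dzb_const _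
        rw [this, dz_const]
        rfl
      · have h : fderiv ℝ (fun _ : Cm n => (1 : ℝ)) (e (p y)) = 0 := fderiv_const_apply _
        rw [h]
        simp
    let f : E → ℂ := fun y => ((u y + (-u y₀) * 1 : ℝ) : ℂ) + ((v y + (-v y₀) * 1 : ℝ) : ℂ) * Complex.I
    have hre : (fun y => (f y).re) = fun y => u y + (-u y₀) * 1 := by
      funext y
      simp only [f, Complex.add_re, Complex.ofReal_re, Complex.mul_re, Complex.I_re, mul_zero,
        Complex.ofReal_im, Complex.I_im, mul_one, sub_self, add_zero]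
    have him : (fun y => (f y).im) = fun y => v y + (-v y₀) * 1 := by
      funext y
      simp only [f, Complex.add_im, Complex.ofReal_re, Complex.mul_im, Complex.I_re, mul_zero,
        Complex.ofReal_im, Complex.I_im, mul_one, add_zero, zero_add]
    have hf : f ∈ H0 p w Γ y₀ := by
      refine mem_H0.2 ⟨?_, ?_, ?_, ?_⟩
      · rw [hre]
        exact (V0 p w Γ).add_mem hu ((V0 p w Γ).smul_mem _ hone)
      · rw [him]
        exact (V0 p w Γ).add_mem hv ((V0 p w Γ).smul_mem _ hone)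
      · exact (hv2.add_const ((-u y₀) * 1) ((-v y₀) * 1)).congr hre.symm him.symm
      · simp [f]
    refine ⟨fun j => b.repr ⟨f, hf⟩ j, fun y => ?_⟩
    have h1 := congrArg (fun x : H0 p w Γ y₀ => (x : E → ℂ) y) (b.sum_repr ⟨f, hf⟩)
    have h2 : (∑ j, b.repr ⟨f, hf⟩ j * F y j) = f y := by
      rw [← show _ = f y from h1]
      push_cast
      rw [Finset.sum_apply]
      rfl
    rw [h2, show (f y).re = u y + (-u y₀) * 1 from congrFun hre y]
    ring
  have hfun : ∀ a : Fin (Module.finrank ℂ (H0 p w Γ y₀)) → ℂ,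
      (fun y => ∑ j, a j * F y j) ∈ H0 p w Γ y₀ := by
    intro a
    have h1 := (∑ j, a j • b j : H0 p w Γ y₀).2
    convert h1 using 1
    funext y
    push_cast
    rw [Finset.sum_apply]
    rfl
  have hper : ∀ (G' : Subgroup Γ) (_ : G'.FiniteIndex) (χ : G' →* Multiplicative ℤ),
      ∃ a : Fin (Module.finrank ℂ (H0 p w Γ y₀)) → ℂ, ∀ g : G',
        ((Multiplicative.toAdd (χ g) : ℤ) : ℝ) = (∑ j, a j * c g j).re := by
    intro G' hG' χ
    obtain ⟨u, B, hu, hu2⟩ := hS1 n X w hw E Γ p hG (phb p w) inferInstance (fun u => Iff.rfl) G' hG' χ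
    obtain ⟨a, ha⟩ := hrep u (mem_V0.2 ⟨⟨B, hu⟩, G', hG', fun g hg => ⟨_, hu2 ⟨g, hg⟩⟩⟩)
    refine ⟨a, fun g => ?_⟩
    have h1 := hu2 g y₀
    have h2 := ha ((g : Γ) • y₀)
    rw [h1] at h2
    have h3 : (∑ j, a j * c g j).re = (∑ j, a j * F ((g : Γ) • y₀) j).re := rfl
    rw [h3]
    linarith
  refine ⟨G,
    { carrier := {g | g ∈ G ∧ c g = 0}
      mul_mem' := ?_
      one_mem' := ?_
      inv_mem' := ?_ }, _, F, c, ?_⟩
  · rintro g h ⟨hg, hg0⟩ ⟨hh, hh0⟩
    exact ⟨G.mul_mem hg hh, by rw [hadd g hg h hh, hg0, hh0, add_zero]⟩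
  · exact ⟨G.one_mem, by show F ((1 : Γ) • y₀) = 0; rw [one_smul, hF0]⟩
  · rintro g ⟨hg, hg0⟩
    refine ⟨G.inv_mem hg, ?_⟩
    have h1 := hadd g hg g⁻¹ (G.inv_mem hg)
    rw [mul_inv_cancel, hg0, zero_add] at h1
    rw [← h1]
    show F ((1 : Γ) • y₀) = 0
    rw [one_smul, hF0]
  · refine ⟨hGfi, ?_, hequiv, fun g => Iff.rfl, ?_, ?_, ?_⟩
    · exact holB_of hw.toIsHermitian hG.cov fun j =>
        ⟨(mem_V0.1 (hb j).1).1, (mem_V0.1 (hb j).2.1).1, (hb j).2.2.1⟩
    · -- the periods form a discrete set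
      intro R
      have : Group.FG G := Subgroup.fg_of_index_ne_zero G
      obtain ⟨r, β, χ, hχ⟩ := exists_int_coords (H := G) (fun g => c g)
        (fun g h => hadd g g.2 h h.2)
      choose a ha using fun k => hper G hGfi (χ k)
      refine Set.Finite.subset (Set.Finite.image (fun m : Fin r → ℤ => ∑ k, (m k : ℝ) • β k)
        (Set.Finite.pi' fun k => Set.finite_Icc (-⌈(∑ j, ‖a k j‖) * R⌉) ⌈(∑ j, ‖a k j‖) * R⌉)) ?_
      rintro v ⟨⟨g, hg, rfl⟩, hR⟩
      refine ⟨fun k => Multiplicative.toAdd (χ k ⟨g, hg⟩), fun k => ?_, (hχ ⟨g, hg⟩).symm⟩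
      have h1 : |((Multiplicative.toAdd (χ k ⟨g, hg⟩) : ℤ) : ℝ)| ≤ (∑ j, ‖a k j‖) * R := by
        rw [ha k ⟨g, hg⟩]
        refine (Complex.abs_re_le_norm _).trans ((norm_sum_le _ _).trans ?_)
        rw [Finset.sum_mul]
        refine Finset.sum_le_sum fun j _ => ?_
        rw [norm_mul]
        exact mul_le_mul_of_nonneg_left ((norm_le_pi_norm _ j).trans hR) (norm_nonneg _)
      have h2 := abs_le.1 (h1.trans (Int.le_ceil _))
      constructor
      · exact_mod_cast h2.1
      · exact_mod_cast h2.2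
    · -- the periods span
      by_contra hne
      obtain ⟨l, hl0, hl⟩ := Submodule.exists_le_ker_of_lt_top _ (lt_top_iff_ne_top.2 hne)
      apply hl0
      obtain ⟨a, ha⟩ := functional_eq l
      have hf := mem_H0.1 (hfun a)
      obtain ⟨B, hB⟩ := (mem_V0.1 hf.1).1
      have h1 : ∀ g ∈ G, ∀ y, (∑ j, a j * F (g • y) j).re = (∑ j, a j * F y j).re := by
        intro g hg y
        rw [← ha, ← ha, hequiv g hg, map_add]
        have h2 : l (c g) = 0 := hl (Submodule.subset_span ⟨g, hg, rfl⟩)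
        rw [h2, add_zero]
      have h2 := const_of_fi hG hB G hGfi h1
      have h3 : ∀ y y', (∑ j, a j * F y j).im = (∑ j, a j * F y' j).im := by
        intro y y'
        have := const_of_conj hG.cov hf.2.2.1.mul_I h2 y y'
        linarith
      have h4 : ∀ y, ∑ j, a j * F y j = 0 := by
        intro y
        rw [← hf.2.2.2]
        exact Complex.ext (h2 y y₀) (h3 y y₀)
      have h5 : ∑ j, a j • b j = 0 := by
        apply Subtype.ext
        funext y
        rw [← show _ = ((0 : H0 p w Γ y₀) : E → ℂ) y from h4 y]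
        push_cast
        rw [Finset.sum_apply]
        rfl
      have h6 : ∀ j, a j = 0 := Fintype.linearIndependent_iff.1 b.linearIndependent a h5
      refine LinearMap.ext fun z => ?_
      rw [ha]
      simp [h6]
    · -- maximality
      intro G' hG' hle φ hφ g hg hcg
      have : Group.FG G' := Subgroup.fg_of_index_ne_zero G'
      obtain ⟨r, β, χ, hχ⟩ := exists_int_coords (H := G') (fun g => φ g)
        (fun g h => hφ g g.2 h h.2)
      have h1 := hχ ⟨g, hg⟩
      rw [show φ g = _ from h1]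
      refine Finset.sum_eq_zero fun k _ => ?_
      obtain ⟨a, ha⟩ := hper G' hG' (χ k)
      rw [ha ⟨g, hg⟩, show c ((⟨g, hg⟩ : G') : Γ) = 0 from hcg]
      simp

/-- **WALB** -/
theorem albStmt_of (hS1 : Vale.Agent.P284.H446.V.S1Stmt) : AlbStmt := by
  intro n X _ _ _ _ _ _ w hw Φ hΦ E Γ _ _ _ _ p hG
  exact albStmt2_of hS1 n X w hw Φ (Vale.Agent.P284.H639.W.fo hΦ) E Γ p hG

end Vale.Agent.P284.H731.Alb
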