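import Vale.Agent.P284.H894.S.Spec
import Mathlib.Algebra.Module.ZLattice.Basic
import Mathlib.LinearAlgebra.Complex.FiniteDimensional

/-!
# P284, row SL of theorem S (helper731): `LatStmt`.
-/

open scoped Pointwise Topology

noncomputable section

namespace Vale.Agent.P284.H731.Lat

open Vale.Agent.P272.K Vale.Agent.P284.H894.S Module

/-- **SL** -/
theorem latStmt : LatStmt := by
  intro Γ _ G K N c hc hK hd hs
  classical
  have hc1 : c 1 = 0 := by
    have := hc 1 G.one_mem 1 G.one_mem
    rw [one_mul] at this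
    exact (left_eq_add.1 this)
  have hci : ∀ g ∈ G, c g⁻¹ = - c g := by
    intro g hg
    have := hc g hg g⁻¹ (G.inv_mem hg)
    rw [mul_inv_cancel, hc1] at this
    exact (neg_eq_of_add_eq_zero_right this.symm).symm
  let L : Submodule ℤ (Cm N) := AddSubgroup.toIntSubmodule
    { carrier := c '' (G : Set Γ)
      add_mem' := by
        rintro _ _ ⟨g, hg, rfl⟩ ⟨h, hh, rfl⟩
        exact ⟨g * h, G.mul_mem hg hh, hc g hg h hh⟩
      zero_mem' := ⟨1, G.one_mem, hc1⟩
      neg_mem' := by rintro _ ⟨g, hg, rfl⟩; exact ⟨g⁻¹, G.inv_mem hg, hci g hg⟩ }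
  have hmem : ∀ x : L, ∃ g ∈ G, c g = (x : Cm N) := fun x => x.2
  have hLc : (L : Set (Cm N)) = c '' (G : Set Γ) := rfl
  have : DiscreteTopology L := by
    refine discreteTopology_of_isOpen_singleton_zero ?_
    refine isOpen_singleton_of_finite_mem_nhds 0 (s := Metric.closedBall 0 1) ?_ ?_
    · exact Metric.closedBall_mem_nhds _ one_pos
    · refine Set.Finite.of_injOn (t := {v : Cm N | (∃ g ∈ G, c g = v) ∧ ‖v‖ ≤ 1})
        (f := Subtype.val) ?_ Subtype.val_injective.injOn (hd 1)
      intro x hx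
      refine ⟨hmem x, ?_⟩
      have := mem_closedBall_zero_iff.1 hx
      exact this
  have : IsZLattice ℝ L := ⟨by rw [hLc]; exact hs⟩
  have hrk : finrank ℤ L = 2 * N := by
    rw [ZLattice.rank ℝ L, _root_.finrank_real_of_complex, finrank_fin_fun]
  let b := finBasisOfFinrankEq ℤ L hrk
  let e : L ≃+ (Fin (2 * N) → ℤ) := b.equivFun.toAddEquiv
  let f : G →* Multiplicative L :=
    { toFun := fun g => Multiplicative.ofAdd ⟨c g, g, g.2, rfl⟩
      map_one' := by
        rw [← ofAdd_zero]
        refine congrArg Multiplicative.ofAdd (Subtype.ext ?_)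
        exact hc1
      map_mul' := by
        intro g h
        rw [← ofAdd_add]
        refine congrArg Multiplicative.ofAdd (Subtype.ext ?_)
        exact hc g g.2 h h.2 }
  refine ⟨(AddMonoidHom.toMultiplicative e.toAddMonoidHom).comp f, ?_, ?_⟩
  · intro y
    obtain ⟨g, hg, hgy⟩ := hmem (e.symm (Multiplicative.toAdd y))
    refine ⟨⟨g, hg⟩, ?_⟩
    have h1 : f ⟨g, hg⟩ = Multiplicative.ofAdd (e.symm (Multiplicative.toAdd y)) :=
      congrArg Multiplicative.ofAdd (Subtype.ext hgy)
    rw [MonoidHom.comp_apply, h1]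
    change Multiplicative.ofAdd (e (e.symm (Multiplicative.toAdd y))) = y
    rw [e.apply_symm_apply]
    rfl
  · ext g
    rw [MonoidHom.mem_ker, MonoidHom.comp_apply, Subgroup.mem_subgroupOf, hK]
    change Multiplicative.ofAdd (e ⟨c g, g, g.2, rfl⟩) = 1 ↔ _
    rw [← ofAdd_zero, Multiplicative.ofAdd.apply_eq_iff_eq, e.map_eq_zero_iff]
    constructor
    · intro h
      exact ⟨g.2, congrArg Subtype.val h⟩
    · intro h
      exact Subtype.ext h.2

end Vale.Agent.P284.H731.Lat
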