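import Vale.Agent.P284.H731.K6C
import Vale.Agent.P272.K.AMP.H470.Loc

/-!
# P284, theorem K for all groups (helper731): the maximum principle on the covering

`omori`: a function on the covering which is bounded from above has almost maximal points with
`∂∂̄u ≤ ε`. `cmp_low`, `cmp_up`: comparison principles.
-/

open scoped Manifold ContDiff Topology Pointwise ComplexConjugate ComplexOrder
open Filter Set Metric MeasureTheory

noncomputable section

namespace Vale.Agent.P284.H731.CY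

open Vale.Agent.P272.K Vale.Agent.P284.H248 Vale.Agent.P284.H894 Vale.Agent.P284.H894.G
  Vale.Agent.P284.H894.V Vale.Agent.P284.H894.W Vale.Agent.P284.H913.V Vale.Agent.P284.H409.A
  Vale.Agent.P284.H409.K

/-! ### One chart -/

theorem norm_sq_le_sq {n : ℕ} [NeZero n] (a z : Cm n) : ‖z - a‖ ^ 2 ≤ AMP.sq a z := by
  obtain ⟨i, hi⟩ : ∃ i : Fin n, ‖z - a‖ = ‖(z - a) i‖ := by
    have h := Finite.exists_max fun i : Fin n => ‖(z - a) i‖
    obtain ⟨i, hi⟩ := h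
    refine ⟨i, le_antisymm ((pi_norm_le_iff_of_nonneg (norm_nonneg _)).2 hi)
      (norm_le_pi_norm _ i)⟩
  rw [hi]
  calc ‖(z - a) i‖ ^ 2 = Complex.normSq (z i - a i) := (Complex.normSq_eq_norm_sq _).symm
    _ ≤ AMP.sq a z := Finset.single_le_sum (f := fun i => Complex.normSq (z i - a i))
        (fun i _ => Complex.normSq_nonneg _) (Finset.mem_univ i)

/-- almost maximal points in one chart -/
theorem omori_loc {n : ℕ} [NeZero n] {u : Cm n → ℝ} {z₀ : Cm n} {r ε m : ℝ} (hr : 0 < r)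
    (hε : 0 < ε) (hu : ∀ z ∈ closedBall z₀ r, ContDiffAt ℝ 2 u z)
    (hm : ∀ z ∈ closedBall z₀ r, u z ≤ m) (h0 : m - ε < u z₀) :
    ∃ z ∈ ball z₀ r, m - ε < u z ∧
      (((2 * ε / r ^ 2 : ℝ) : ℂ) • (1 : Matrix (Fin n) (Fin n) ℂ) - cHess u z).PosSemidef := by
  set q : Cm n → ℝ := fun z => u z - 2 * ε / r ^ 2 * AMP.sq z₀ z with hq
  have hs : ∀ z, ContDiffAt ℝ 2 (fun z => 2 * ε / r ^ 2 * AMP.sq z₀ z) z := fun z =>
    contDiffAt_const.mul ((AMP.contDiff_sq z₀).contDiffAt.of_le (by norm_cast))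
  have hc : ContinuousOn q (closedBall z₀ r) := fun z hz =>
    ((hu z hz).sub (hs z)).continuousAt.continuousWithinAt
  have h00 : z₀ ∈ closedBall z₀ r := mem_closedBall_self hr.le
  have hsq0 : AMP.sq z₀ z₀ = 0 := by simp [AMP.sq]
  obtain ⟨z, hz, hmax⟩ := (isCompact_closedBall z₀ r).exists_isMaxOn ⟨z₀, h00⟩ hc
  have h1 : q z₀ ≤ q z := hmax h00
  have h2 : q z₀ = u z₀ := by rw [hq]; simp [hsq0]
  have hr2 : 0 < r ^ 2 := by positivity
  have h3 : 0 ≤ 2 * ε / r ^ 2 * AMP.sq z₀ z :=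
    mul_nonneg (by positivity) (AMP.normSq_sum_nonneg470 z₀ z)
  have h4 : m - ε < u z := by
    have : q z ≤ u z := by simp only [hq]; linarith
    linarith
  have h5 : z ∈ ball z₀ r := by
    rw [mem_ball]
    by_contra hcon
    have h6 : dist z z₀ = r := le_antisymm (mem_closedBall.1 hz) (not_lt.1 hcon)
    have h7 : r ^ 2 ≤ AMP.sq z₀ z := by
      have := norm_sq_le_sq z₀ z
      rwa [← dist_eq_norm, h6] at this
    have h8 : 2 * ε ≤ 2 * ε / r ^ 2 * AMP.sq z₀ z := by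
      calc 2 * ε = 2 * ε / r ^ 2 * r ^ 2 := by field_simp
        _ ≤ _ := by gcongr
    have h9 := hm z hz
    have : q z = u z - 2 * ε / r ^ 2 * AMP.sq z₀ z := rfl
    linarith
  refine ⟨z, h5, h4, ?_⟩
  have hloc : IsLocalMax q z := by
    filter_upwards [isOpen_ball.mem_nhds h5] with y hy
    exact hmax (ball_subset_closedBall hy)
  have h6 := N.neg_cHess_posSemidef ((hu z hz).sub (hs z)) hloc
  have h7 : cHess q z = cHess u z - ((2 * ε / r ^ 2 : ℝ) : ℂ) • 1 := by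
    rw [hq, C2.cHess_sub (hu z hz) (hs z), C2.cHess_const_mul _
      ((AMP.contDiff_sq z₀).contDiffAt.of_le (by norm_cast)), AMP.cHess_sq]
  rw [h7] at h6
  convert h6 using 1
  abel

section
variable {n : ℕ} {Γ : Type} [Group Γ] {C : Coc n Γ}

/-- **Almost maximal points** on the covering -/
theorem omori [NeZero n] {u : Γ → C.I → Cm n → ℝ} (hu : SmF C u) {m : ℝ}
    (hm : ∀ γ a, ∀ z ∈ C.Ω a, u γ a z ≤ m) (hs : ∀ ε : ℝ, 0 < ε → ∃ γ a, ∃ z ∈ C.Ω a,
      m - ε < u γ a z) {ε : ℝ} (hε : 0 < ε) :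
    ∃ γ a, ∃ z ∈ C.V a, m - ε < u γ a z ∧
      ((ε : ℂ) • (1 : Matrix (Fin n) (Fin n) ℂ) - cHess (u γ a) z).PosSemidef := by
  obtain ⟨r, hr, hra⟩ : ∃ r : ℝ, 0 < r ∧ ∀ a, r ≤ C.r a := by
    obtain ⟨a, ha⟩ := Finite.exists_min fun a : C.I => C.r a
    exact ⟨C.r a, C.r_pos a, ha⟩
  set δ : ℝ := min ε (ε * r ^ 2 / 2) with hδ
  have hδ0 : 0 < δ := lt_min hε (by positivity)
  obtain ⟨γ, a, z, hz, hz1⟩ := hs δ hδ0
  obtain ⟨b, hb, hb1⟩ := C.cover a z hz
  have h1 : m - δ < u (γ * C.κ a b z) b (C.T a b z) := by rwa [← hu.compat γ a b z hb]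
  set z' := C.T a b z with hz'
  have hsub : closedBall z' (C.r b) ⊆ C.V b := by
    intro y hy
    have h2 := dist_triangle y z' (C.c b)
    have h3 := mem_closedBall.1 hy
    have h4 := mem_ball.1 hb1
    have := C.r_pos b
    exact mem_ball.2 (by linarith)
  have hsub' : closedBall z' (C.r b) ⊆ C.Ω b := hsub.trans (ball_subset_ball (by
    have := C.r_pos b; linarith))
  obtain ⟨y, hy, hy1, hy2⟩ := omori_loc (u := u (γ * C.κ a b z) b) (z₀ := z') (m := m)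
    (C.r_pos b) hδ0
    (fun y hy => (hu.smooth _ b y (hsub' hy)).of_le (by norm_cast))
    (fun y hy => hm _ b y (hsub' hy)) h1
  refine ⟨_, b, y, hsub (ball_subset_closedBall hy), by
    have := min_le_left ε (ε * r ^ 2 / 2); linarith, ?_⟩
  have hle : 2 * δ / C.r b ^ 2 ≤ ε := by
    have h5 : r ^ 2 ≤ C.r b ^ 2 := by have := hra b; gcongr
    have h6 : 2 * δ ≤ ε * r ^ 2 := by
      have := min_le_right ε (ε * r ^ 2 / 2); linarith
    have h7 : 0 < C.r b ^ 2 := by have := C.r_pos b; positivity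
    rw [div_le_iff₀ h7]
    nlinarith
  have h8 : (ε : ℂ) • (1 : Matrix (Fin n) (Fin n) ℂ) - cHess (u (γ * C.κ a b z) b) y =
      (((2 * δ / C.r b ^ 2 : ℝ) : ℂ) • (1 : Matrix (Fin n) (Fin n) ℂ) -
        cHess (u (γ * C.κ a b z) b) y) +
      ((ε - 2 * δ / C.r b ^ 2 : ℝ) : ℂ) • (1 : Matrix (Fin n) (Fin n) ℂ) := by
    have : (ε : ℂ) = ((2 * δ / C.r b ^ 2 : ℝ) : ℂ) + ((ε - 2 * δ / C.r b ^ 2 : ℝ) : ℂ) := by
      push_cast; ring
    rw [this, add_smul]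
    abel
  rw [h8]
  refine hy2.add (Matrix.PosSemidef.one.smul ?_)
  exact_mod_cast sub_nonneg.2 hle

end

/-! ### Comparison -/

/-- `det G' ≥ (1 - ε/δ)^n det G` if `G' ≥ G - ε`, `G ≥ δ` -/
theorem det_low {n : ℕ} {G G' : Matrix (Fin n) (Fin n) ℂ} {ε δ : ℝ} (hε : 0 ≤ ε) (hδ : 0 < δ)
    (hεδ : ε < δ) (hG : (G - (δ : ℂ) • 1).PosSemidef) (h : (G' - G + (ε : ℂ) • 1).PosSemidef) :
    G.PosDef ∧ n * Real.log (1 - ε / δ) + Real.log G.det.re ≤ Real.log G'.det.re := by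
  have hδ1 : ((δ : ℂ) • (1 : Matrix (Fin n) (Fin n) ℂ)).PosDef :=
    Matrix.PosDef.one.smul (by exact_mod_cast hδ)
  have hGp : G.PosDef := by
    have : G = (δ : ℂ) • 1 + (G - (δ : ℂ) • 1) := by abel
    rw [this]
    exact hδ1.add_posSemidef hG
  have hc : 0 < 1 - ε / δ := by
    rw [sub_pos, div_lt_one hδ]
    exact hεδ
  refine ⟨hGp, ?_⟩
  have h1 : (((1 - ε / δ : ℝ) : ℂ) • G).PosDef := hGp.smul (by exact_mod_cast hc)
  have h2 : (G' - ((1 - ε / δ : ℝ) : ℂ) • G).PosSemidef := by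
    have : G' - ((1 - ε / δ : ℝ) : ℂ) • G = (G' - G + (ε : ℂ) • 1) +
        ((ε / δ : ℝ) : ℂ) • (G - (δ : ℂ) • 1) := by
      rw [smul_sub, smul_smul]
      have e1 : ((ε / δ : ℝ) : ℂ) * (δ : ℂ) = (ε : ℂ) := by
        rw [← Complex.ofReal_mul, div_mul_cancel₀ _ hδ.ne']
      rw [e1, Complex.ofReal_sub, Complex.ofReal_one, sub_smul, one_smul]
      abel
    rw [this]
    exact h.add (hG.smul (by exact_mod_cast (div_nonneg hε hδ.le)))
  have h3 := N.det_re_le h1 h2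
  have hGd : 0 < G.det.re := (Complex.pos_iff.1 hGp.det_pos).1
  have h4 : (((1 - ε / δ : ℝ) : ℂ) • G).det.re = (1 - ε / δ) ^ n * G.det.re := by
    rw [Matrix.det_smul, Fintype.card_fin, ← Complex.ofReal_pow, Complex.re_ofReal_mul]
  rw [h4] at h3
  have h5 := Real.log_le_log (by positivity) h3
  rwa [Real.log_mul (by positivity) hGd.ne', Real.log_pow] at h5

section
variable {n : ℕ} {Γ : Type} [Group Γ] {C : Coc n Γ}

/-- a nonempty bounded family of values has a supremum -/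
theorem exists_sup (u : Γ → C.I → Cm n → ℝ) {B : ℝ} (hB : ∀ γ a, ∀ z ∈ C.Ω a, u γ a z ≤ B) :
    ∃ m : ℝ, (∀ γ a, ∀ z ∈ C.Ω a, u γ a z ≤ m) ∧ ∀ ε : ℝ, 0 < ε → ∃ γ a, ∃ z ∈ C.Ω a,
      m - ε < u γ a z := by
  set S : Set ℝ := {s | ∃ γ a, ∃ z ∈ C.Ω a, u γ a z = s} with hS
  have hbd : BddAbove S := ⟨B, by rintro s ⟨γ, a, z, hz, rfl⟩; exact hB γ a z hz⟩
  have hne : S.Nonempty := by
    obtain ⟨a⟩ := C.ne
    exact ⟨_, 1, a, C.c a, mem_ball_self (by have := C.r_pos a; positivity), rfl⟩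
  refine ⟨sSup S, fun γ a z hz => le_csSup hbd ⟨γ, a, z, hz, rfl⟩, fun ε hε => ?_⟩
  obtain ⟨s, ⟨γ, a, z, hz, rfl⟩, hs⟩ := exists_lt_of_lt_csSup hne (sub_lt_self (sSup S) hε)
  exact ⟨γ, a, z, hz, hs⟩

theorem lim_aux (n : ℕ) {δ t : ℝ} (hδ : 0 < δ) (ht : 0 < t) :
    ∃ ε : ℝ, 0 < ε ∧ ε < δ ∧ ε - n * Real.log (1 - ε / δ) < t := by
  have h1 : Tendsto (fun ε : ℝ => ε - n * Real.log (1 - ε / δ)) (𝓝 0) (𝓝 (0 - n * Real.log (1 - 0 / δ))) := by
    refine tendsto_id.sub (Tendsto.const_mul _ ?_)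
    refine (Real.continuousAt_log (by simp)).tendsto.comp ?_
    exact tendsto_const_nhds.sub (tendsto_id.div_const δ)
  simp only [zero_div, sub_zero, Real.log_one, mul_zero] at h1
  have h2 := (h1.eventually (gt_mem_nhds ht)).filter_mono (nhdsWithin_le_nhds (s := Ioi 0))
  have h3 : ∀ᶠ ε : ℝ in 𝓝[>] 0, ε < δ :=
    (eventually_lt_nhds hδ).filter_mono nhdsWithin_le_nhds
  obtain ⟨ε, h4, h5, h6⟩ := (h2.and (h3.and self_mem_nhdsWithin)).exists
  exact ⟨ε, h6, h5, h4⟩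

/-- **Comparison principle**, `u` uniformly positive: if
`log det (w + ∂∂̄v) - log det (w + ∂∂̄u) ≤ v - u + c` wherever `u - v > c`, then `u - v ≤ c`. -/
theorem cmp_low [NeZero n] (W : C.I → Cm n → Matrix (Fin n) (Fin n) ℂ)
    {u v : Γ → C.I → Cm n → ℝ} (hu : SmF C u) (hv : SmF C v) {B δ c : ℝ}
    (hB : ∀ γ a, ∀ z ∈ C.Ω a, u γ a z - v γ a z ≤ B) (hδ : 0 < δ)
    (hpos : ∀ γ a, ∀ z ∈ C.V a, (W a z + cHess (u γ a) z - (δ : ℂ) • 1).PosSemidef)
    (hc : ∀ γ a, ∀ z ∈ C.V a, c < u γ a z - v γ a z →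
      Real.log (W a z + cHess (v γ a) z).det.re - Real.log (W a z + cHess (u γ a) z).det.re ≤
        v γ a z - u γ a z + c) :
    ∀ γ a, ∀ z ∈ C.Ω a, u γ a z - v γ a z ≤ c := by
  have huv : SmF C fun γ a z => u γ a z - v γ a z :=
    { smooth := fun γ a z hz => (hu.smooth γ a z hz).sub (hv.smooth γ a z hz)
      compat := fun γ a b z hz => by rw [hu.compat γ a b z hz, hv.compat γ a b z hz] }
  obtain ⟨m, hm, hm1⟩ := exists_sup (fun γ a z => u γ a z - v γ a z) hB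
  by_contra hcon
  push Not at hcon
  obtain ⟨γ₁, a₁, z₁, hz₁, h₁⟩ := hcon
  have hmc : 0 < m - c := by have := hm γ₁ a₁ z₁ hz₁; linarith
  obtain ⟨ε, hε, hεδ, hε1⟩ := lim_aux n hδ hmc
  have hε2 : ε < m - c := by
    have : Real.log (1 - ε / δ) ≤ 0 := by
      refine Real.log_nonpos ?_ ?_
      · rw [sub_nonneg, div_le_one hδ]; exact hεδ.le
      · have : 0 ≤ ε / δ := by positivity
        linarith
    have : n * Real.log (1 - ε / δ) ≤ 0 := mul_nonpos_of_nonneg_of_nonpos (by positivity) this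
    linarith
  obtain ⟨γ, a, z, hz, h1, h2⟩ := omori huv hm hm1 hε
  have hzΩ : z ∈ C.Ω a := ball_subset_ball (by have := C.r_pos a; linarith) hz
  have hu2 : ContDiffAt ℝ 2 (u γ a) z := (hu.smooth γ a z hzΩ).of_le (by norm_cast)
  have hv2 : ContDiffAt ℝ 2 (v γ a) z := (hv.smooth γ a z hzΩ).of_le (by norm_cast)
  rw [C2.cHess_sub hu2 hv2] at h2
  have h3 : (W a z + cHess (v γ a) z - (W a z + cHess (u γ a) z) + (ε : ℂ) • 1).PosSemidef := by
    convert h2 using 1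
    abel
  obtain ⟨-, h4⟩ := det_low hε.le hδ hεδ (hpos γ a z hz) h3
  have h5 := hc γ a z hz (by linarith)
  linarith

/-- **Comparison principle**, `v` uniformly positive. -/
theorem cmp_up [NeZero n] (W : C.I → Cm n → Matrix (Fin n) (Fin n) ℂ)
    {u v : Γ → C.I → Cm n → ℝ} (hu : SmF C u) (hv : SmF C v) {B δ c : ℝ}
    (hB : ∀ γ a, ∀ z ∈ C.Ω a, u γ a z - v γ a z ≤ B) (hδ : 0 < δ)
    (hpu : ∀ γ a, ∀ z ∈ C.V a, (W a z + cHess (u γ a) z).PosDef)
    (hpos : ∀ γ a, ∀ z ∈ C.V a, (W a z + cHess (v γ a) z - (δ : ℂ) • 1).PosSemidef)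
    (hc : ∀ γ a, ∀ z ∈ C.V a, c < u γ a z - v γ a z →
      Real.log (W a z + cHess (v γ a) z).det.re - Real.log (W a z + cHess (u γ a) z).det.re ≤
        v γ a z - u γ a z + c) :
    ∀ γ a, ∀ z ∈ C.Ω a, u γ a z - v γ a z ≤ c := by
  have huv : SmF C fun γ a z => u γ a z - v γ a z :=
    { smooth := fun γ a z hz => (hu.smooth γ a z hz).sub (hv.smooth γ a z hz)
      compat := fun γ a b z hz => by rw [hu.compat γ a b z hz, hv.compat γ a b z hz] }
  obtain ⟨m, hm, hm1⟩ := exists_sup (fun γ a z => u γ a z - v γ a z) hB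
  by_contra hcon
  push Not at hcon
  obtain ⟨γ₁, a₁, z₁, hz₁, h₁⟩ := hcon
  have hmc : 0 < m - c := by have := hm γ₁ a₁ z₁ hz₁; linarith
  obtain ⟨ε, hε, hεδ, hε1⟩ := lim_aux n hδ hmc
  have hlog : Real.log (1 - ε / δ) ≤ 0 := by
    refine Real.log_nonpos ?_ ?_
    · rw [sub_nonneg, div_le_one hδ]; exact hεδ.le
    · have : 0 ≤ ε / δ := by positivity
      linarith
  have hnlog : n * Real.log (1 - ε / δ) ≤ 0 := mul_nonpos_of_nonneg_of_nonpos (by positivity) hlog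
  obtain ⟨γ, a, z, hz, h1, h2⟩ := omori huv hm hm1 hε
  have hzΩ : z ∈ C.Ω a := ball_subset_ball (by have := C.r_pos a; linarith) hz
  have hu2 : ContDiffAt ℝ 2 (u γ a) z := (hu.smooth γ a z hzΩ).of_le (by norm_cast)
  have hv2 : ContDiffAt ℝ 2 (v γ a) z := (hv.smooth γ a z hzΩ).of_le (by norm_cast)
  rw [C2.cHess_sub hu2 hv2] at h2
  -- `G_u ≤ G_v + ε ≤ (1 - ε/δ)⁻¹ G_v`
  have hc0 : 0 < 1 - ε / δ := by rw [sub_pos, div_lt_one hδ]; exact hεδ
  have h3 : (W a z + cHess (v γ a) z - ((1 - ε / δ : ℝ) : ℂ) • (W a z + cHess (u γ a) z)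
      ).PosSemidef := by
    have e : W a z + cHess (v γ a) z - ((1 - ε / δ : ℝ) : ℂ) • (W a z + cHess (u γ a) z) =
        ((1 - ε / δ : ℝ) : ℂ) • ((ε : ℂ) • (1 : Matrix (Fin n) (Fin n) ℂ) -
          (cHess (u γ a) z - cHess (v γ a) z)) +
        ((ε / δ : ℝ) : ℂ) • (W a z + cHess (v γ a) z - (δ : ℂ) • 1) +
        ((ε / δ * ε : ℝ) : ℂ) • (1 : Matrix (Fin n) (Fin n) ℂ) := by
      ext j k
      simp only [Matrix.sub_apply, Matrix.add_apply, Matrix.smul_apply, smul_eq_mul]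
      have hδ' : (δ : ℂ) ≠ 0 := by exact_mod_cast hδ.ne'
      push_cast
      field_simp
      ring
    rw [e]
    refine ((h2.smul (by exact_mod_cast hc0.le)).add
      ((hpos γ a z hz).smul (by exact_mod_cast (div_nonneg hε.le hδ.le)))).add
      (Matrix.PosSemidef.one.smul ?_)
    have : 0 ≤ ε / δ * ε := by positivity
    exact_mod_cast this
  have hGu := hpu γ a z hz
  have hGd : 0 < (W a z + cHess (u γ a) z).det.re := (Complex.pos_iff.1 hGu.det_pos).1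
  have h4 := N.det_re_le (hGu.smul (by exact_mod_cast hc0)) h3
  have h5 : (((1 - ε / δ : ℝ) : ℂ) • (W a z + cHess (u γ a) z)).det.re =
      (1 - ε / δ) ^ n * (W a z + cHess (u γ a) z).det.re := by
    rw [Matrix.det_smul, Fintype.card_fin, ← Complex.ofReal_pow, Complex.re_ofReal_mul]
  rw [h5] at h4
  have h6 := Real.log_le_log (by positivity) h4
  rw [Real.log_mul (by positivity) hGd.ne', Real.log_pow] at h6
  have h7 := hc γ a z hz (by linarith)
  linarith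

end

end Vale.Agent.P284.H731.CY
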