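import Vale.Agent.P284.H731.M0
import Vale.Agent.P284.H639.V5

/-!
# P284, theorem CY (helper731): decay of the solution of the Monge-Ampère equation

The barrier `∑_b χ_b ℓ (γ κ_b)` for a slowly varying function `ℓ` on the group.
-/

open scoped Manifold ContDiff Topology NNReal ComplexOrder ComplexConjugate Pointwise
open Filter Set Metric MeasureTheory

set_option maxSynthPendingDepth 3

noncomputable section

namespace Vale.Agent.P284.H731.CY

open Vale.Agent.P272.K Vale.Agent.P284.H248 Vale.Agent.P284.H894 Vale.Agent.P284.H894.G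
  Vale.Agent.P284.H894.V Vale.Agent.P284.H409.K Vale.Agent.P284.H730.CY

/-! ### Matrices -/

theorem psd_of_bd {n : ℕ} {M : Matrix (Fin n) (Fin n) ℂ} (hM : M.IsHermitian) {B : ℝ}
    (hB : ∀ j k, ‖M j k‖ ≤ B) : (M + ((n * B : ℝ) : ℂ) • 1).PosSemidef := by
  have h := H10.CY.sub_one_psd hM (lam := -(n * B)) (fun v => by
    have h1 : ∀ j k, -(B * ((‖v j‖ ^ 2 + ‖v k‖ ^ 2) / 2)) ≤ (M j k * v j * conj (v k)).re := by
      intro j k
      have h2 : |(M j k * v j * conj (v k)).re| ≤ ‖M j k * v j * conj (v k)‖ :=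
        Complex.abs_re_le_norm _
      rw [norm_mul, norm_mul, Complex.norm_conj] at h2
      have h3 : ‖M j k‖ * ‖v j‖ * ‖v k‖ ≤ B * ((‖v j‖ ^ 2 + ‖v k‖ ^ 2) / 2) := by
        have h4 : ‖v j‖ * ‖v k‖ ≤ (‖v j‖ ^ 2 + ‖v k‖ ^ 2) / 2 := by
          nlinarith [sq_nonneg (‖v j‖ - ‖v k‖)]
        calc ‖M j k‖ * ‖v j‖ * ‖v k‖ = ‖M j k‖ * (‖v j‖ * ‖v k‖) := by ring
          _ ≤ _ := mul_le_mul (hB j k) h4 (by positivity) ((norm_nonneg _).trans (hB j k))
      have := (abs_le.1 h2).1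
      linarith
    calc -(n * B) * ∑ j, ‖v j‖ ^ 2 = ∑ j, ∑ k, -(B * ((‖v j‖ ^ 2 + ‖v k‖ ^ 2) / 2)) := by
          simp only [Finset.sum_neg_distrib, ← Finset.mul_sum, ← Finset.sum_div,
            Finset.sum_add_distrib, Finset.sum_const, Finset.card_univ, Fintype.card_fin,
            nsmul_eq_mul]
          ring
      _ ≤ ∑ j, ∑ k, (M j k * v j * conj (v k)).re :=
          Finset.sum_le_sum fun j _ => Finset.sum_le_sum fun k _ => h1 j k
      _ = _ := by simp only [Complex.re_sum])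
  convert h using 1
  rw [Complex.ofReal_neg, neg_smul, sub_neg_eq_add]

/-! ### The length -/

section
variable {n : ℕ} {Γ : Type} [Group Γ]

theorem exists_len (C : Coc n Γ) : ∃ len : Γ → ℕ, (∀ k, {γ | len γ ≤ k}.Finite) ∧
    ∀ γ, ∀ s ∈ C.N, len (γ * s) ≤ len γ + 1 ∧ len γ ≤ len (γ * s) + 1 := by
  classical
  set S : Set Γ := insert 1 ((C.N : Set Γ) ∪ (C.N : Set Γ)⁻¹) with hS
  have hSf : S.Finite := ((C.N.finite_toSet).union (C.N.finite_toSet).inv).insert 1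
  have h1 : (1 : Γ) ∈ S := mem_insert _ _
  have hgen : ∀ γ : Γ, ∃ k : ℕ, γ ∈ S ^ k := by
    obtain ⟨a⟩ := C.ne
    intro γ
    refine C.conn (fun γ _ => ∃ k : ℕ, γ ∈ S ^ k) ?_ 1 a γ a ⟨0, by simp⟩
    rintro γ a b z hz hz1 hz2 ⟨k, hk⟩
    refine ⟨k + 1, ?_⟩
    rw [pow_succ]
    exact mul_mem_mul hk (Or.inr (Or.inl (C.κ_mem a b z hz hz1 hz2)))
  have hpf : ∀ k : ℕ, (S ^ k).Finite := by
    intro k
    induction k with
    | zero => rw [pow_zero]; exact Set.finite_one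
    | succ k ih => rw [pow_succ]; exact ih.mul hSf
  refine ⟨fun γ => Nat.find (hgen γ), fun k => ?_, fun γ s hs => ⟨?_, ?_⟩⟩
  · refine (hpf k).subset fun γ hγ => ?_
    have hγ' : Nat.find (hgen γ) ≤ k := hγ
    exact Set.pow_subset_pow_right h1 hγ' (Nat.find_spec (hgen γ))
  · refine Nat.find_min' _ ?_
    rw [pow_succ]
    exact mul_mem_mul (Nat.find_spec (hgen γ)) (Or.inr (Or.inl hs))
  · refine Nat.find_min' _ ?_
    rw [pow_succ]
    have := mul_mem_mul (Nat.find_spec (hgen (γ * s)))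
      (show s⁻¹ ∈ S from Or.inr (Or.inr (Set.inv_mem_inv.2 hs)))
    simpa [mul_assoc] using this

/-- slowly varying functions on the group -/
theorem exists_slow (C : Coc n Γ) {A η : ℝ} (hA : 0 < A) (hη : 0 < η) (hη1 : η ≤ 1)
    {G : Set Γ} (hG : G.Finite) :
    ∃ ℓ : Γ → ℝ, (∀ γ, 0 < ℓ γ ∧ ℓ γ ≤ A) ∧ (∀ ε : ℝ, 0 < ε → {γ | ε ≤ ℓ γ}.Finite) ∧
      (∀ γ, ∀ s ∈ C.N, |ℓ (γ * s) - ℓ γ| ≤ 2 * η * ℓ γ) ∧
      ∀ γ ∈ G, ℓ γ = A ∧ ∀ s ∈ C.N, ℓ (γ * s) = A := by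
  obtain ⟨len, hfin, hlen⟩ := exists_len C
  obtain ⟨k, hk⟩ : ∃ k : ℕ, ∀ γ ∈ G, len γ ≤ k := by
    obtain ⟨k, hk⟩ := (hG.image len).bddAbove
    exact ⟨k, fun γ hγ => hk (mem_image_of_mem _ hγ)⟩
  refine ⟨fun γ => A * Real.exp (-(η * ((len γ - (k + 1) : ℕ) : ℝ))), fun γ => ⟨by positivity, ?_⟩,
    fun ε hε => ?_, fun γ s hs => ?_, fun γ hγ => ⟨?_, fun s hs => ?_⟩⟩
  · have : Real.exp (-(η * ((len γ - (k + 1) : ℕ) : ℝ))) ≤ 1 :=
      Real.exp_le_one_iff.2 (by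
        have : 0 ≤ η * ((len γ - (k + 1) : ℕ) : ℝ) := by positivity
        linarith)
    calc _ ≤ A * 1 := mul_le_mul_of_nonneg_left this hA.le
      _ = A := mul_one A
  · obtain ⟨m, hm⟩ : ∃ m : ℕ, A * Real.exp (-(η * m)) < ε := by
      have h1 : Tendsto (fun m : ℕ => A * Real.exp (-(η * m))) atTop (𝓝 (A * 0)) := by
        refine Tendsto.const_mul _ (Real.tendsto_exp_atBot.comp ?_)
        exact tendsto_neg_atTop_atBot.comp (tendsto_natCast_atTop_atTop.const_mul_atTop hη)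
      rw [mul_zero] at h1
      exact (h1.eventually (gt_mem_nhds hε)).exists
    refine (hfin (m + (k + 1))).subset fun γ hγ => ?_
    by_contra hcon
    have h2 : m + (k + 1) < len γ := not_le.1 hcon
    have h3 : m ≤ len γ - (k + 1) := by omega
    have h4 : A * Real.exp (-(η * ((len γ - (k + 1) : ℕ) : ℝ))) ≤ A * Real.exp (-(η * m)) := by
      have h5 : (m : ℝ) ≤ ((len γ - (k + 1) : ℕ) : ℝ) := by exact_mod_cast h3
      gcongr
    have h6 : ε ≤ A * Real.exp (-(η * ((len γ - (k + 1) : ℕ) : ℝ))) := hγ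
    linarith
  · obtain ⟨h1, h2⟩ := hlen γ s hs
    set m : ℕ := len γ - (k + 1) with hm
    set m' : ℕ := len (γ * s) - (k + 1) with hm'
    have h3 : m' ≤ m + 1 := by omega
    have h4 : m ≤ m' + 1 := by omega
    have h5 : |(m : ℝ) - m'| ≤ 1 := by
      have h6 : (m' : ℝ) ≤ m + 1 := by exact_mod_cast h3
      have h7 : (m : ℝ) ≤ m' + 1 := by exact_mod_cast h4
      exact abs_le.2 ⟨by linarith, by linarith⟩
    have h6 : |η * ((m : ℝ) - m')| ≤ 1 * η := by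
      rw [abs_mul, abs_of_pos hη]
      calc η * |(m : ℝ) - m'| ≤ η * 1 := by gcongr
        _ = 1 * η := by ring
    have h7 : Real.exp (-(η * (m' : ℝ))) =
        Real.exp (-(η * (m : ℝ))) * Real.exp (η * ((m : ℝ) - m')) := by
      rw [← Real.exp_add]
      congr 1
      ring
    have h8 := Real.abs_exp_sub_one_le (x := η * ((m : ℝ) - m')) (h6.trans (by linarith))
    have h9 : A * Real.exp (-(η * (m' : ℝ))) - A * Real.exp (-(η * (m : ℝ))) =
        A * Real.exp (-(η * (m : ℝ))) * (Real.exp (η * ((m : ℝ) - m')) - 1) := by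
      rw [h7]; ring
    rw [h9, abs_mul, abs_of_pos (by positivity)]
    calc A * Real.exp (-(η * (m : ℝ))) * |Real.exp (η * ((m : ℝ) - m')) - 1| ≤
        A * Real.exp (-(η * (m : ℝ))) * (2 * η) := by
          gcongr
          linarith
      _ = _ := by ring
  · have : len γ - (k + 1) = 0 := by have := hk γ hγ; omega
    simp [this]
  · have : len (γ * s) - (k + 1) = 0 := by
      have h1 := hk γ hγ
      have h2 := (hlen γ s hs).1
      omega
    simp [this]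

/-! ### The partition of unity -/

/-- bound of the Hessians of the partition of unity -/
theorem chi_bd (C : Coc n Γ) (P : PU C) (K : KM C) : ∃ L : ℝ, 0 ≤ L ∧ ∀ b a, ∀ z ∈ C.V a,
    ((L : ℂ) • K.w a z + cHess (P.χ b a) z).PosSemidef ∧
      ((L : ℂ) • K.w a z - cHess (P.χ b a) z).PosSemidef := by
  have hsub : ∀ a, closedBall (C.c a) (3 * C.r a) ⊆ C.Ω a := fun a =>
    closedBall_subset_ball (by have := C.r_pos a; linarith)
  have h1 : ∀ (b a : C.I) (j k : Fin n), ∃ B : ℝ, ∀ z ∈ closedBall (C.c a) (3 * C.r a),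
      ‖cHess (P.χ b a) z j k‖ ≤ B := by
    intro b a j k
    refine (isCompact_closedBall (C.c a) (3 * C.r a)).exists_bound_of_continuousOn fun z hz => ?_
    have h2 : ContDiffAt ℝ 2 (P.χ b a) z := (P.smooth b a z (hsub a hz)).of_le (by norm_cast)
    exact (C2.contDiffAt_cHess (m := 0) h2 (by norm_num) j k).continuousAt.continuousWithinAt
  choose B hB using h1
  obtain ⟨B', hB'⟩ := (Set.finite_range fun q : C.I × C.I × Fin n × Fin n =>
    B q.1 q.2.1 q.2.2.1 q.2.2.2).bddAbove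
  have h3 : ∀ b a j k, ∀ z ∈ closedBall (C.c a) (3 * C.r a), ‖cHess (P.χ b a) z j k‖ ≤ max B' 0 :=
    fun b a j k z hz => (hB b a j k z hz).trans ((hB' ⟨(b, a, j, k), rfl⟩).trans (le_max_left _ _))
  set D : ℝ := n * max B' 0 with hD
  have hD0 : 0 ≤ D := mul_nonneg (by positivity) (le_max_right _ _)
  refine ⟨D / K.lam, div_nonneg hD0 K.lam_pos.le, fun b a z hz => ?_⟩
  have hz' : z ∈ closedBall (C.c a) (3 * C.r a) := ball_subset_closedBall hz
  have hzΩ : z ∈ C.Ω a := hsub a hz'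
  have hw := H10.CY.sub_one_psd ((K.ku a).pos z hzΩ).isHermitian (K.low a z hzΩ)
  have hH : (cHess (P.χ b a) z).IsHermitian :=
    C2.cHess_isHermitian ((P.smooth b a z hzΩ).of_le (by norm_cast))
  have e1 : (((D / K.lam : ℝ)) : ℂ) • K.w a z = (((D / K.lam : ℝ)) : ℂ) •
      (K.w a z - (K.lam : ℂ) • 1) + (D : ℂ) • (1 : Matrix (Fin n) (Fin n) ℂ) := by
    rw [smul_sub, smul_smul, ← Complex.ofReal_mul, div_mul_cancel₀ _ K.lam_pos.ne']
    abel
  have hc : (0 : ℂ) ≤ (((D / K.lam : ℝ)) : ℂ) := by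
    exact_mod_cast div_nonneg hD0 K.lam_pos.le
  refine ⟨?_, ?_⟩
  · have h4 := psd_of_bd hH (fun j k => h3 b a j k z hz')
    rw [e1, add_assoc, add_comm ((D : ℂ) • (1 : Matrix (Fin n) (Fin n) ℂ))]
    exact (hw.smul hc).add h4
  · have h4 := psd_of_bd hH.neg (B := max B' 0) (fun j k => by
      rw [Matrix.neg_apply, norm_neg]; exact h3 b a j k z hz')
    have e2 : (((D / K.lam : ℝ)) : ℂ) • K.w a z - cHess (P.χ b a) z = (((D / K.lam : ℝ)) : ℂ) •
        (K.w a z - (K.lam : ℂ) • 1) + (-cHess (P.χ b a) z +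
          (D : ℂ) • (1 : Matrix (Fin n) (Fin n) ℂ)) := by
      rw [e1]
      abel
    rw [e2]
    exact (hw.smul hc).add h4

/-- the barrier -/
def bar {C : Coc n Γ} (P : PU C) (ℓ : Γ → ℝ) (γ : Γ) (a : C.I) (z : Cm n) : ℝ :=
  ∑ b, P.χ b a z * ℓ (γ * C.κ a b z)

open Classical in
/-- the coefficients of the barrier near `z` -/
def bc {C : Coc n Γ} (P : PU C) (ℓ : Γ → ℝ) (γ : Γ) (a : C.I) (z : Cm n) (b : C.I) : ℝ :=
  if z ∈ C.O a b ∧ C.T a b z ∈ P.K b then ℓ (γ * C.κ a b z) else ℓ γ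

theorem K_sub_Ω {C : Coc n Γ} (P : PU C) (b : C.I) : P.K b ⊆ C.Ω b :=
  (P.K_sub b).trans (ball_subset_ball (by have := C.r_pos b; linarith))

theorem bar_ev {C : Coc n Γ} (P : PU C) (ℓ : Γ → ℝ) (γ : Γ) (a : C.I) {z : Cm n}
    (hz : z ∈ C.Ω a) : bar P ℓ γ a =ᶠ[𝓝 z] fun y => ∑ b, P.χ b a y * bc P ℓ γ a z b := by
  have h1 : ∀ b, ∀ᶠ y in 𝓝 z, P.χ b a y * ℓ (γ * C.κ a b y) = P.χ b a y * bc P ℓ γ a z b := by
    intro b
    by_cases h : z ∈ C.O a b ∧ C.T a b z ∈ P.K b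
    · filter_upwards [C.κ_loc a b z h.1] with y hy
      rw [hy, bc, if_pos h]
    · filter_upwards [C.closed a b (P.K b) (P.compactK b) (K_sub_Ω P b) z hz h,
        isOpen_ball.mem_nhds hz] with y hy hy1
      have h2 : P.χ b a y = 0 := by
        by_contra hcon
        exact hy (P.supp b a y hy1 hcon)
      rw [h2, zero_mul, zero_mul]
  filter_upwards [eventually_all.2 h1] with y hy
  exact Finset.sum_congr rfl fun b _ => hy b

theorem bar_smF {C : Coc n Γ} (P : PU C) (ℓ : Γ → ℝ) : SmF C (bar P ℓ) where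
  smooth γ a z hz := by
    refine ContDiffAt.congr_of_eventuallyEq ?_ (bar_ev P ℓ γ a hz)
    exact ContDiffAt.sum fun b _ => (P.smooth b a z hz).mul contDiffAt_const
  compat γ a d z hz := by
    have hTd : C.T a d z ∈ C.Ω d := C.O_sub d a (C.T_mem a d z hz)
    refine Finset.sum_congr rfl fun b _ => ?_
    rw [P.compat b a d z hz]
    by_cases h : P.χ b d (C.T a d z) = 0
    · rw [h, zero_mul, zero_mul]
    · have h1 := (P.supp b d _ hTd h).1
      rw [C.trans_κ a d b z hz h1, mul_assoc]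

theorem bar_hess {C : Coc n Γ} (P : PU C) (ℓ : Γ → ℝ) (γ : Γ) (a : C.I) {z : Cm n}
    (hz : z ∈ C.Ω a) : cHess (bar P ℓ γ a) z =
      ∑ b, ((bc P ℓ γ a z b - ℓ γ : ℝ) : ℂ) • cHess (P.χ b a) z := by
  have h1 : bar P ℓ γ a =ᶠ[𝓝 z]
      fun y => (∑ b, (bc P ℓ γ a z b - ℓ γ) * P.χ b a y) + ℓ γ := by
    filter_upwards [bar_ev P ℓ γ a hz, isOpen_ball.mem_nhds hz] with y hy hy1
    rw [hy]
    have h2 := P.sum_one a y hy1
    calc ∑ b, P.χ b a y * bc P ℓ γ a z b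
        = ∑ b, ((bc P ℓ γ a z b - ℓ γ) * P.χ b a y + ℓ γ * P.χ b a y) :=
          Finset.sum_congr rfl fun b _ => by ring
      _ = _ := by rw [Finset.sum_add_distrib, ← Finset.mul_sum, h2, mul_one]
  have h2 : ∀ b, ContDiffAt ℝ 2 (P.χ b a) z := fun b => (P.smooth b a z hz).of_le (by norm_cast)
  have h3 : ∀ b, ContDiffAt ℝ ∞ (fun y => (bc P ℓ γ a z b - ℓ γ) * P.χ b a y) z := fun b =>
    contDiffAt_const.mul (P.smooth b a z hz)
  rw [C2.cHess_congr h1, C2.cHess_add ((ContDiffAt.sum fun b _ => h3 b).of_le (by norm_cast))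
    contDiffAt_const, C2.cHess_const, add_zero, H639.V.cHess_sum _ fun b _ => h3 b]
  exact Finset.sum_congr rfl fun b _ => C2.cHess_const_mul _ (h2 b)

/-- the barrier is comparable to `ℓ γ` on the piece `(γ, a)` -/
theorem bar_mem {C : Coc n Γ} (P : PU C) {ℓ : Γ → ℝ} {τ : ℝ} (γ : Γ)
    (hℓ : ∀ s ∈ C.N, |ℓ (γ * s) - ℓ γ| ≤ τ) (a : C.I) {z : Cm n} (hz : z ∈ C.V a) :
    |bar P ℓ γ a z - ℓ γ| ≤ τ := by
  have hzΩ : z ∈ C.Ω a := ball_subset_ball (by have := C.r_pos a; linarith) hz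
  have h1 := P.sum_one a z hzΩ
  have h2 : bar P ℓ γ a z - ℓ γ = ∑ b, P.χ b a z * (ℓ (γ * C.κ a b z) - ℓ γ) := by
    calc bar P ℓ γ a z - ℓ γ = bar P ℓ γ a z - (∑ b, P.χ b a z) * ℓ γ := by rw [h1, one_mul]
      _ = _ := by
        rw [bar, Finset.sum_mul, ← Finset.sum_sub_distrib]
        exact Finset.sum_congr rfl fun b _ => by ring
  rw [h2]
  calc |∑ b, P.χ b a z * (ℓ (γ * C.κ a b z) - ℓ γ)|
      ≤ ∑ b, |P.χ b a z * (ℓ (γ * C.κ a b z) - ℓ γ)| := Finset.abs_sum_le_sum_abs _ _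
    _ ≤ ∑ b, P.χ b a z * τ := by
        refine Finset.sum_le_sum fun b _ => ?_
        rw [abs_mul, abs_of_nonneg (P.nonneg b a z)]
        by_cases h : P.χ b a z = 0
        · rw [h, zero_mul, zero_mul]
        · have h3 := P.supp b a z hzΩ h
          exact mul_le_mul_of_nonneg_left
            (hℓ _ (C.κ_mem a b z h3.1 hz (P.K_sub b h3.2))) (P.nonneg b a z)
    _ = τ := by rw [← Finset.sum_mul, h1, one_mul]

theorem bc_mem {C : Coc n Γ} (P : PU C) {ℓ : Γ → ℝ} {τ : ℝ} (hτ : 0 ≤ τ) (γ : Γ)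
    (hℓ : ∀ s ∈ C.N, |ℓ (γ * s) - ℓ γ| ≤ τ) (a : C.I) {z : Cm n} (hz : z ∈ C.V a) (b : C.I) :
    |bc P ℓ γ a z b - ℓ γ| ≤ τ := by
  rw [bc]
  split_ifs with h
  · exact hℓ _ (C.κ_mem a b z h.1 hz (P.K_sub b h.2))
  · simpa using hτ

/-- combinations of the Hessians of the partition of unity -/
theorem comb_psd {C : Coc n Γ} (P : PU C) (K : KM C) {L : ℝ}
    (hL : ∀ b a, ∀ z ∈ C.V a, ((L : ℂ) • K.w a z + cHess (P.χ b a) z).PosSemidef ∧
      ((L : ℂ) • K.w a z - cHess (P.χ b a) z).PosSemidef) (hL0 : 0 ≤ L) {a : C.I} {z : Cm n}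
    (hz : z ∈ C.V a) (t : C.I → ℝ) {τ : ℝ} (ht : ∀ b, |t b| ≤ τ) :
    (((Fintype.card C.I * (τ * L) : ℝ) : ℂ) • K.w a z +
      ∑ b, ((t b : ℝ) : ℂ) • cHess (P.χ b a) z).PosSemidef := by
  have hzΩ : z ∈ C.Ω a := ball_subset_ball (by have := C.r_pos a; linarith) hz
  have hw : (K.w a z).PosSemidef := ((K.ku a).pos z hzΩ).posSemidef
  have h1 : ∀ b, (((τ * L : ℝ) : ℂ) • K.w a z +
      ((t b : ℝ) : ℂ) • cHess (P.χ b a) z).PosSemidef := by
    intro b
    have h2 : ((((τ - |t b|) * L : ℝ)) : ℂ) • K.w a z + (((|t b| : ℝ) : ℂ) • ((L : ℂ) • K.w a z) +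
        ((t b : ℝ) : ℂ) • cHess (P.χ b a) z) = ((τ * L : ℝ) : ℂ) • K.w a z +
        ((t b : ℝ) : ℂ) • cHess (P.χ b a) z := by
      rw [smul_smul, ← add_assoc, ← add_smul]
      push_cast
      ring_nf
    rw [← h2]
    refine (hw.smul (by exact_mod_cast mul_nonneg (sub_nonneg.2 (ht b)) hL0)).add ?_
    rcases le_total 0 (t b) with h | h
    · rw [abs_of_nonneg h, ← smul_add]
      exact (hL b a z hz).1.smul (by exact_mod_cast h)
    · rw [abs_of_nonpos h]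
      have : (((-t b : ℝ)) : ℂ) • ((L : ℂ) • K.w a z) + ((t b : ℝ) : ℂ) • cHess (P.χ b a) z =
          (((-t b : ℝ)) : ℂ) • ((L : ℂ) • K.w a z - cHess (P.χ b a) z) := by
        rw [smul_sub]
        push_cast
        rw [neg_smul, neg_smul, sub_neg_eq_add]
      rw [this]
      exact (hL b a z hz).2.smul (by exact_mod_cast neg_nonneg.2 h)
  have h3 : ((Fintype.card C.I * (τ * L) : ℝ) : ℂ) • K.w a z +
      ∑ b, ((t b : ℝ) : ℂ) • cHess (P.χ b a) z =
      ∑ b, (((τ * L : ℝ) : ℂ) • K.w a z + ((t b : ℝ) : ℂ) • cHess (P.χ b a) z) := by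
    rw [Finset.sum_add_distrib, Finset.sum_const, Finset.card_univ, ← Nat.cast_smul_eq_nsmul ℂ,
      smul_smul]
    push_cast
    rfl
  rw [h3]
  exact Matrix.posSemidef_sum _ fun b _ => h1 b

end

end Vale.Agent.P284.H731.CY
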