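import Vale.Agent.P284.H409.Core

/-!
# P284, theorem A, groups (helper731): eigencharacters on the homomorphisms of a normal subgroup;
`grp_coreA` is `grp_core` of helper409 with the twisted vanishing `TwC` instead of subexponential
growth.
-/

open scoped Pointwise commutatorElement
open Module

noncomputable section

namespace Vale.Agent.P284.H731.Eig

open Vale.Agent.P284.H409

/-- Twisted vanishing: for a character `χ` of a subgroup `G3` of finite index, `|χ| ≠ 1` somewhere, and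
a cocycle `f`, `f k = 0` if `k ∈ K` and `χ k = 1`. -/
def TwC {G : Type*} [Group G] (K : Subgroup G) : Prop :=
  ∀ G3 : Subgroup G, G3.FiniteIndex → ∀ χ f : G → ℂ,
    (∀ g ∈ G3, ∀ h ∈ G3, χ (g * h) = χ g * χ h) →
    (∀ g ∈ G3, ∀ h ∈ G3, f (g * h) = f g + χ g * f h) → (∃ g ∈ G3, ‖χ g‖ ≠ 1) →
    ∀ k ∈ K, k ∈ G3 → χ k = 1 → f k = 0

section
variable {G : Type*} [Group G] {K : Subgroup G} [hK : K.Normal]

/-- an eigenvalue is a root of unity, if all eigenvalues of `g` have modulus one -/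
theorem pow_eq_one' [hfg : Group.FG K] {g : G}
    (hU : ∀ φ : Additive K →+ ℂ, φ ≠ 0 → ∀ χ : ℂ, rh K g φ = χ • φ → ‖χ‖ = 1)
    {φ : Additive K →+ ℂ} (hφ : φ ≠ 0) {χ : ℂ} (h : rh K g φ = χ • φ) :
    ∃ n : ℕ, 0 < n ∧ χ ^ n = 1 := by
  have hint : IsIntegral ℤ χ := isInt hφ h
  have hintQ : IsIntegral ℚ χ := hint.tower_top
  let L : IntermediateField ℚ ℂ := IntermediateField.adjoin ℚ {χ}
  have : FiniteDimensional ℚ L := IntermediateField.adjoin.finiteDimensional hintQ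
  have : NumberField L := ⟨⟩
  let x : L := ⟨χ, IntermediateField.mem_adjoin_simple_self ℚ χ⟩
  have hx : IsIntegral ℤ x := by
    have : IsIntegral ℤ (algebraMap L ℂ x) := hint
    exact (isIntegral_algebraMap_iff (algebraMap L ℂ).injective).1 this
  obtain ⟨a, ha⟩ : ∃ a, φ a ≠ 0 := by
    by_contra hcon
    push Not at hcon
    exact hφ (by ext x; exact hcon x)
  obtain ⟨l, hl⟩ : ∃ l : Module.Dual L ℂ, l (φ a) ≠ 0 := by
    by_contra hcon
    push Not at hcon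
    exact ha ((Module.forall_dual_apply_eq_zero_iff L (φ a)).1 hcon)
  have h1 : ∀ σ : L →+* ℂ, ‖σ x‖ = 1 := by
    intro σ
    let ψ : Additive K →+ ℂ := (σ : L →+ ℂ).comp ((l : ℂ →+ L).comp φ)
    have hψ : ψ ≠ 0 := by
      intro h0
      have h2 : σ (l (φ a)) = 0 := DFunLike.congr_fun h0 a
      exact hl ((map_eq_zero σ).1 h2)
    refine hU ψ hψ _ ?_
    ext y
    change σ (l (rh K g φ (Additive.ofMul y))) = σ x * σ (l (φ (Additive.ofMul y)))
    rw [h, AddMonoidHom.smul_apply, ← map_mul]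
    congr 1
    have : χ • φ (Additive.ofMul y) = x • φ (Additive.ofMul y) := rfl
    rw [this, map_smul]
    rfl
  obtain ⟨n, hn, hn1⟩ := NumberField.Embeddings.pow_eq_one_of_norm_eq_one L ℂ hx h1
  refine ⟨n, hn, ?_⟩
  have := congrArg (algebraMap L ℂ) hn1
  simpa using this

/-- commuting operators have a common eigenvector in every invariant subspace -/
theorem common' {V : Type*} [AddCommGroup V] [Module ℂ V] [FiniteDimensional ℂ V]
    {ι : Type*} (T : ι → Module.End ℂ V) (hT : ∀ i j, Commute (T i) (T j)) (W₀ : Submodule ℂ V)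
    (h₀ : W₀ ≠ ⊥) (hinv₀ : ∀ i, ∀ v ∈ W₀, T i v ∈ W₀) (s : Finset ι) :
    ∃ W ≤ W₀, W ≠ ⊥ ∧ (∀ i, ∀ v ∈ W, T i v ∈ W) ∧ ∀ i ∈ s, ∃ c : ℂ, ∀ v ∈ W, T i v = c • v := by
  classical
  induction s using Finset.induction_on with
  | empty => exact ⟨W₀, le_rfl, h₀, hinv₀, by simp⟩
  | insert j s hj ih =>
    obtain ⟨W, hle, hW, hinv, hsc⟩ := ih
    have : Nontrivial W := Submodule.nontrivial_iff_ne_bot.2 hW
    obtain ⟨c, hc⟩ := Module.End.exists_eigenvalue ((T j).restrict (hinv j))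
    obtain ⟨v, hv⟩ := hc.exists_hasEigenvector
    refine ⟨W ⊓ LinearMap.ker (T j - c • 1), inf_le_left.trans hle, ?_, ?_, ?_⟩
    · intro h0
      have h1 : (v : V) ∈ W ⊓ LinearMap.ker (T j - c • 1) := by
        refine ⟨v.2, LinearMap.mem_ker.2 ?_⟩
        have h2 : T j (v : V) = c • (v : V) := by
          have := congrArg Subtype.val hv.apply_eq_smul
          simpa using this
        change T j (v : V) - c • (v : V) = 0
        rw [h2, sub_self]
      rw [h0, Submodule.mem_bot] at h1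
      exact hv.2 (Subtype.ext h1)
    · rintro i v ⟨hv1, hv2⟩
      have h0 : T j v - c • v = 0 := LinearMap.mem_ker.1 hv2
      refine ⟨hinv i v hv1, LinearMap.mem_ker.2 ?_⟩
      have h1 : T j (T i v) = T i (T j v) := by
        have := LinearMap.congr_fun (hT j i) v
        exact this
      change T j (T i v) - c • (T i v) = 0
      rw [h1, sub_eq_zero.1 h0, map_smul, sub_self]
    · intro i hi
      rcases Finset.mem_insert.1 hi with rfl | hi
      · refine ⟨c, fun v hv => ?_⟩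
        have h0 := LinearMap.mem_ker.1 hv.2
        exact sub_eq_zero.1 h0
      · obtain ⟨c', hc'⟩ := hsc i hi
        exact ⟨c', fun v hv => hc' v hv.1⟩

/-- **eigencharacter** with a given eigenvalue `a` at `t` -/
theorem exists_eigenchar [hGfg : Group.FG G] [hfg : Group.FG K] (G1 : Subgroup G)
    [hfi : G1.FiniteIndex] (hcomm : ∀ g ∈ G1, ∀ h ∈ G1, ⁅g, h⁆ ∈ K) (t : G1)
    {φ₀ : Additive K →+ ℂ} (hφ₀ : φ₀ ≠ 0) {a : ℂ} (ha : rh K (t : G) φ₀ = a • φ₀) :
    ∃ φ : Additive K →+ ℂ, φ ≠ 0 ∧ ∃ χ : G1 →* ℂˣ,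
      (∀ g : G1, rh K (g : G) φ = (χ g : ℂ) • φ) ∧ (χ t : ℂ) = a := by
  classical
  have hfd := finDim K
  have hG1fg : Group.FG G1 := Subgroup.fg_of_index_ne_zero G1
  obtain ⟨S, hS⟩ := Group.FG.out (G := G1)
  let W₀ : Submodule ℂ (Additive K →+ ℂ) := LinearMap.ker (rh K (t : G) - a • 1)
  have hW₀ : ∀ v, v ∈ W₀ ↔ rh K (t : G) v = a • v := fun v => by
    rw [LinearMap.mem_ker]
    change rh K (t : G) v - a • v = 0 ↔ _
    exact sub_eq_zero
  have hcc : ∀ g h : G1, Commute (rh K (g : G)) (rh K (h : G)) :=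
    fun g h => rh_comm K (hcomm g g.2 h h.2)
  obtain ⟨W, hle, hW, hinv, hsc⟩ := common' (fun g : G1 => rh K (g : G)) hcc W₀
    (fun h0 => hφ₀ (by
      have : φ₀ ∈ W₀ := (hW₀ _).2 ha
      rwa [h0, Submodule.mem_bot] at this))
    (fun i v hv => (hW₀ _).2 (by
      have h1 : rh K (t : G) (rh K (i : G) v) = rh K (i : G) (rh K (t : G) v) :=
        LinearMap.congr_fun (hcc t i) v
      rw [h1, (hW₀ _).1 hv, map_smul])) S
  obtain ⟨φ, hφW, hφ⟩ := Submodule.exists_mem_ne_zero_of_ne_bot hW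
  have hsc' : ∀ g : G1, ∃ c : ℂ, rh K (g : G) φ = c • φ := by
    have h1 : Subgroup.closure (S : Set G1) = ⊤ := hS
    intro g
    have hg : g ∈ Subgroup.closure (S : Set G1) := h1 ▸ Subgroup.mem_top g
    induction hg using Subgroup.closure_induction with
    | mem x hx =>
      obtain ⟨c, hc⟩ := hsc x hx
      exact ⟨c, hc φ hφW⟩
    | one => exact ⟨1, by rw [Subgroup.coe_one, rh_one]; simp⟩
    | mul x y _ _ hx hy =>
      obtain ⟨c, hc⟩ := hx
      obtain ⟨d, hd⟩ := hy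
      refine ⟨c * d, ?_⟩
      rw [Subgroup.coe_mul, rh_mul, Module.End.mul_apply, hc, map_smul, hd, smul_smul]
    | inv x _ hx =>
      obtain ⟨c, hc⟩ := hx
      refine ⟨c⁻¹, ?_⟩
      have hi : rh K (x : G)⁻¹ (rh K x φ) = φ := by
        rw [← Module.End.mul_apply, ← rh_mul, mul_inv_cancel, rh_one]; rfl
      have hc0 : c ≠ 0 := by
        rintro rfl
        rw [hc, zero_smul, map_zero] at hi
        exact hφ hi.symm
      rw [hc, map_smul] at hi
      rw [Subgroup.coe_inv]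
      calc rh K (x : G)⁻¹ φ = c⁻¹ • (c • rh K (x : G)⁻¹ φ) := by
            rw [smul_smul, inv_mul_cancel₀ hc0, one_smul]
        _ = c⁻¹ • φ := by rw [hi]
  choose c hc using hsc'
  have hinj : ∀ a b : ℂ, a • φ = b • φ → a = b := fun a b h => by
    by_contra hne'
    have : (a - b) • φ = 0 := by rw [sub_smul, h, sub_self]
    rcases smul_eq_zero.1 this with h1 | h1
    · exact hne' (sub_eq_zero.1 h1)
    · exact hφ h1
  have hc0 : ∀ g, c g ≠ 0 := by
    intro g h0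
    have hi : rh K (g : G)⁻¹ (rh K g φ) = φ := by
      rw [← Module.End.mul_apply, ← rh_mul, mul_inv_cancel, rh_one]; rfl
    rw [hc, h0, zero_smul, map_zero] at hi
    exact hφ hi.symm
  refine ⟨φ, hφ,
    { toFun := fun g => Units.mk0 (c g) (hc0 g)
      map_one' := by
        ext
        refine hinj _ _ ?_
        simp only [Units.val_mk0, Units.val_one, one_smul]
        rw [← hc, Subgroup.coe_one, rh_one]; rfl
      map_mul' := fun g h => by
        ext
        refine hinj _ _ ?_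
        simp only [Units.val_mk0, Units.val_mul]
        rw [← hc, Subgroup.coe_mul, rh_mul, Module.End.mul_apply, hc g, map_smul, hc h, smul_smul] },
    fun g => hc g, ?_⟩
  refine hinj _ _ ?_
  rw [← (hW₀ _).1 (hle hφW)]
  exact (hc t).symm

/-- an eigencharacter with `χ t ≠ 1` gives a cocycle which extends `φ` -/
theorem exists_cocycle (G1 : Subgroup G) (hcomm : ∀ g ∈ G1, ∀ h ∈ G1, ⁅g, h⁆ ∈ K)
    {φ : Additive K →+ ℂ} {χ : G1 →* ℂˣ} (h : ∀ g : G1, rh K (g : G) φ = (χ g : ℂ) • φ) (t : G1)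
    (ht : (χ t : ℂ) ≠ 1) : ∃ f : G1 → ℂ, (∀ g h, f (g * h) = f g + (χ g : ℂ) * f h) ∧
      ∀ (k : K) (hk : (k : G) ∈ G1), f ⟨k, hk⟩ = φ (Additive.ofMul k) := by
  have ht' : (χ t : ℂ) - 1 ≠ 0 := sub_ne_zero.2 ht
  have hval : ∀ (g : G1) (x : K), φ (Additive.ofMul ⟨(g : G) * x * (g : G)⁻¹, hK.conj_mem _ x.2 g⟩) =
      (χ g : ℂ) * φ (Additive.ofMul x) := by
    intro g x
    rw [← rh_apply, h g]
    rfl
  refine ⟨fun g => φ (Additive.ofMul ⟨⁅(t : G), (g : G)⁆, hcomm t t.2 g g.2⟩) / ((χ t : ℂ) - 1),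
    fun g g' => ?_, fun k hk => ?_⟩
  · have e : (⟨⁅(t : G), ((g * g' : G1) : G)⁆, hcomm t t.2 _ (g * g').2⟩ : K) =
        ⟨⁅(t : G), (g : G)⁆, hcomm t t.2 g g.2⟩ *
          ⟨(g : G) * (⟨⁅(t : G), (g' : G)⁆, hcomm t t.2 g' g'.2⟩ : K) * (g : G)⁻¹,
            hK.conj_mem _ (⟨⁅(t : G), (g' : G)⁆, hcomm t t.2 g' g'.2⟩ : K).2 g⟩ := by
      ext
      simp [commutatorElement_def, mul_assoc]
    change φ (Additive.ofMul ⟨⁅(t : G), ((g * g' : G1) : G)⁆, hcomm t t.2 _ (g * g').2⟩) /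
        ((χ t : ℂ) - 1) = φ (Additive.ofMul ⟨⁅(t : G), (g : G)⁆, hcomm t t.2 g g.2⟩) /
        ((χ t : ℂ) - 1) + (χ g : ℂ) *
        (φ (Additive.ofMul ⟨⁅(t : G), (g' : G)⁆, hcomm t t.2 g' g'.2⟩) / ((χ t : ℂ) - 1))
    rw [e, ofMul_mul, map_add, hval]
    ring
  · have e : (⟨⁅(t : G), (k : G)⁆, hcomm t t.2 k hk⟩ : K) =
        ⟨(t : G) * k * (t : G)⁻¹, hK.conj_mem _ k.2 t⟩ * k⁻¹ := by
      ext
      simp [commutatorElement_def]
    change φ (Additive.ofMul ⟨⁅(t : G), (k : G)⁆, hcomm t t.2 k hk⟩) / ((χ t : ℂ) - 1) = _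
    rw [e, ofMul_mul, ofMul_inv, map_add, map_neg, hval]
    field_simp
    ring

/-- the twisted vanishing gives: all eigenvalues have modulus one -/
theorem norm_eq_one_of_tw [hGfg : Group.FG G] [hfg : Group.FG K] {K' : Subgroup G} (hKK' : K ≤ K')
    (hU : TwC K') (G1 : Subgroup G) [hfi : G1.FiniteIndex] (hKG1 : K ≤ G1)
    (hcomm : ∀ g ∈ G1, ∀ h ∈ G1, ⁅g, h⁆ ∈ K) (t : G1) {φ₀ : Additive K →+ ℂ} (hφ₀ : φ₀ ≠ 0)
    {a : ℂ} (ha : rh K (t : G) φ₀ = a • φ₀) : ‖a‖ = 1 := by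
  classical
  by_contra hne
  obtain ⟨φ, hφ, χ, hχ, hχt⟩ := exists_eigenchar G1 hcomm t hφ₀ ha
  have ht : (χ t : ℂ) ≠ 1 := by
    rw [hχt]
    rintro rfl
    exact hne norm_one
  obtain ⟨f, hf1, hf2⟩ := exists_cocycle G1 hcomm hχ t ht
  apply hφ
  ext x
  let χ' : G → ℂ := fun g => if h : g ∈ G1 then (χ ⟨g, h⟩ : ℂ) else 0
  let f' : G → ℂ := fun g => if h : g ∈ G1 then f ⟨g, h⟩ else 0
  have hχ' : ∀ g (h : g ∈ G1), χ' g = χ ⟨g, h⟩ := fun g h => dif_pos h
  have hf' : ∀ g (h : g ∈ G1), f' g = f ⟨g, h⟩ := fun g h => dif_pos h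
  have h1 := hU G1 hfi χ' f' (fun g hg h hh => by
    rw [hχ' g hg, hχ' h hh, hχ' _ (G1.mul_mem hg hh), ← Units.val_mul, ← map_mul]
    rfl) (fun g hg h hh => by
    rw [hf' g hg, hf' h hh, hf' _ (G1.mul_mem hg hh), hχ' g hg, ← hf1]
    rfl) ⟨t, t.2, by rw [hχ' _ t.2]; rwa [hχt]⟩ (Additive.toMul x : K)
    (hKK' (Additive.toMul x).2) (hKG1 (Additive.toMul x).2) (by
      rw [hχ' _ (hKG1 (Additive.toMul x).2)]
      have h2 := hχ ⟨_, hKG1 (Additive.toMul x).2⟩
      rw [rh_mem K (Additive.toMul x).2] at h2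
      by_contra h3
      have h4 : (1 - (χ ⟨_, hKG1 (Additive.toMul x).2⟩ : ℂ)) • φ = 0 := by
        rw [sub_smul, one_smul, ← h2]
        exact sub_self _
      rcases smul_eq_zero.1 h4 with h5 | h5
      · exact h3 (sub_eq_zero.1 h5).symm
      · exact hφ h5)
  rw [hf' _ (hKG1 (Additive.toMul x).2), hf2] at h1
  exact h1

variable (K) in
/-- **S6** with the twisted vanishing. -/
theorem s6A {K' : Subgroup G} (hKK' : K ≤ K') (hU : TwC K') [hGfg : Group.FG G] [hfg : Group.FG K]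
    (hne : ∃ φ : Additive K →+ ℝ, φ ≠ 0) (G1 : Subgroup G) [hfi : G1.FiniteIndex] (hKG1 : K ≤ G1)
    (hcomm : ∀ g ∈ G1, ∀ h ∈ G1, ⁅g, h⁆ ∈ K) :
    ∃ G2 : Subgroup G, G2 ≤ G1 ∧ G2.FiniteIndex ∧ K ≤ G2 ∧ ∃ φ : Additive K →+ ℝ, φ ≠ 0 ∧
      ∀ g ∈ G2, ∀ x : K, φ (Additive.ofMul ⟨g * x * g⁻¹, hK.conj_mem _ x.2 g⟩) =
        φ (Additive.ofMul x) := by
  classical
  obtain ⟨φ₁, hφ₁⟩ := hne
  have hφ₀ : (Complex.ofRealHom : ℝ →+ ℂ).comp φ₁ ≠ 0 := fun h => hφ₁ (by
    ext x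
    have := DFunLike.congr_fun h (Additive.ofMul x)
    exact Complex.ofReal_injective this)
  obtain ⟨φ, hφ, χ, hχ, -⟩ := exists_eigenchar G1 hcomm (1 : G1) hφ₀ (a := 1) (by
    rw [Subgroup.coe_one, rh_one, one_smul]; rfl)
  have hroot : ∀ g : G1, ∃ n : ℕ, 0 < n ∧ (χ g : ℂ) ^ n = 1 := fun g =>
    pow_eq_one' (fun φ' hφ' a ha => norm_eq_one_of_tw hKK' hU G1 hKG1 hcomm g hφ' ha) hφ (hχ g)
  have hinj : ∀ a b : ℂ, a • φ = b • φ → a = b := fun a b h => by
    by_contra hne'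
    have : (a - b) • φ = 0 := by rw [sub_smul, h, sub_self]
    rcases smul_eq_zero.1 this with h1 | h1
    · exact hne' (sub_eq_zero.1 h1)
    · exact hφ h1
  have hG1fg : Group.FG G1 := Subgroup.fg_of_index_ne_zero G1
  have hfin : Finite χ.range := by
    have h1 : Group.FG χ.range := Group.fg_range χ
    refine CommGroup.finite_of_fg_isMulTorsion _ ?_
    rintro ⟨_, g, rfl⟩
    obtain ⟨n, hn, h1⟩ := hroot g
    rw [isOfFinOrder_iff_pow_eq_one]
    refine ⟨n, hn, ?_⟩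
    ext
    simpa using h1
  have hker : χ.ker.FiniteIndex := inferInstance
  refine ⟨χ.ker.map G1.subtype, ?_, ?_, ?_, ?_⟩
  · exact Subgroup.map_subtype_le _
  · rw [Subgroup.finiteIndex_iff, Subgroup.index_map_subtype]
    exact mul_ne_zero hker.index_ne_zero hfi.index_ne_zero
  · intro k hk
    refine ⟨⟨k, hKG1 hk⟩, ?_, rfl⟩
    have : χ ⟨k, hKG1 hk⟩ = 1 := by
      ext
      refine hinj _ _ ?_
      simp only [Units.val_one, one_smul]
      rw [← hχ, rh_mem K hk]; rfl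
    exact this
  · have hfix : ∀ g ∈ χ.ker.map G1.subtype, ∀ x : K,
        φ (Additive.ofMul ⟨g * x * g⁻¹, hK.conj_mem _ x.2 g⟩) = φ (Additive.ofMul x) := by
      rintro _ ⟨g, hg, rfl⟩ x
      have h1 : (χ g : ℂ) = 1 := congrArg Units.val (show χ g = 1 from hg)
      have h2 := DFunLike.congr_fun (hχ g) (Additive.ofMul x)
      rw [h1, one_smul, rh_apply] at h2
      exact h2
    by_cases hre : Complex.reAddGroupHom.comp φ = 0
    · refine ⟨Complex.imAddGroupHom.comp φ, fun him => hφ ?_, fun g hg x => ?_⟩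
      · ext x
        refine Complex.ext ?_ ?_
        · exact DFunLike.congr_fun hre (Additive.ofMul x)
        · exact DFunLike.congr_fun him (Additive.ofMul x)
      · exact congrArg Complex.im (hfix g hg x)
    · exact ⟨Complex.reAddGroupHom.comp φ, hre, fun g hg x => congrArg Complex.re (hfix g hg x)⟩

end

/-- `grp_core` of helper409 with the twisted vanishing instead of subexponential growth. -/
theorem grp_coreA {G : Type*} [Group G] [Group.FG G] (K : Subgroup G) (hU : TwC K)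
    (hKc : ∀ g h : G, ⁅g, h⁆ ∈ K) [Group.FG K] (H : Subgroup K) [H.FiniteIndex]
    (φ : Additive H →+ ℝ) (hφ : φ ≠ 0) :
    ∃ G2 : Subgroup G, G2.FiniteIndex ∧ ∃ (ω : G2 → G2 → ℝ) (f : G2 → ℝ),
      (∀ a b c, ω (a * b) c = ω a c + ω b c) ∧ (∀ a b c, ω a (b * c) = ω a b + ω a c) ∧
      (∀ a b, ω a b = - ω b a) ∧ (∀ a b, f (a * b) = f a + f b + ω a b) ∧
      (∀ a b : G2, (a : G) ∈ K → ω a b = 0) ∧ ∃ k : G2, (k : G) ∈ K ∧ f k ≠ 0 := by
  classical
  have hKn : K.Normal := by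
    constructor
    intro k hk g
    have e : g * k * g⁻¹ = ⁅g, k⁆ * k := by simp [commutatorElement_def]
    rw [e]; exact mul_mem (hKc g k) hk
  obtain ⟨L, hLH, hLf, hLa⟩ := exists_char H
  set K2 : Subgroup G := L.map K.subtype with hK2
  have hK2K : K2 ≤ K := Subgroup.map_subtype_le _
  have hK2n : K2.Normal := by
    constructor
    rintro _ ⟨x, hx, rfl⟩ g
    refine ⟨MulAut.conjNormal g x, hLa _ x hx, ?_⟩
    simp
  have hK2i : K2.subgroupOf K = L := by
    rw [hK2, Subgroup.subgroupOf, Subgroup.comap_map_eq_self_of_injective K.subtype_injective]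
  have hK2r : K2.relIndex K ≠ 0 := by
    rw [Subgroup.relIndex, hK2i]; exact hLf.index_ne_zero
  let eL : L ≃* K2 := L.equivMapOfInjective K.subtype K.subtype_injective
  have hK2fg : Group.FG K2 := Group.fg_of_surjective (f := eL.toMonoidHom) eL.surjective
  obtain ⟨G1, hG1f, hK2G1, hG1c⟩ := finite_by_abelian K K2 hK2r hKc
  -- a nonzero homomorphism on `K2`
  have hψ : ∃ ψ : Additive K2 →+ ℝ, ψ ≠ 0 := by
    let j : K2 →* H := (Subgroup.inclusion hLH).comp eL.symm.toMonoidHom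
    refine ⟨φ.comp (MonoidHom.toAdditive j), fun h0 => hφ ?_⟩
    ext x
    obtain ⟨m, hm, -, hxm⟩ := Subgroup.exists_pow_mem_of_index_ne_zero hLf.index_ne_zero
      ((Additive.toMul x : H) : K)
    have h1 := DFunLike.congr_fun h0 (Additive.ofMul (eL ⟨_, hxm⟩))
    have h2 : j (eL ⟨_, hxm⟩) = (Additive.toMul x : H) ^ m := by
      refine Subtype.ext ?_
      simp [j]
    have h3 : φ (Additive.ofMul ((Additive.toMul x : H) ^ m)) = 0 := by
      rw [← h2]; exact h1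
    rw [ofMul_pow, map_nsmul] at h3
    have h4 : (m : ℝ) ≠ 0 := by exact_mod_cast hm.ne'
    rw [nsmul_eq_mul] at h3
    exact (mul_eq_zero.1 h3).resolve_left h4
  obtain ⟨G2, hG21, hG2f, hK2G2, ψ, hψ0, hψi⟩ := s6A K2 hK2K hU hψ G1 hK2G1 hG1c
  -- the quadratic function on `G2`
  let i2 : K2.subgroupOf G2 →* K2 := (Subgroup.subgroupOfEquivOfLe hK2G2).toMonoidHom
  have hi2 : ∀ x, ((i2 x : K2) : G) = ((x : G2) : G) := fun x => rfl
  obtain ⟨ω, f, h1, h2, h3, h4, h5⟩ := exists_quad (G := G2) (K2.subgroupOf G2)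
    (fun g h => by
      rw [Subgroup.mem_subgroupOf]
      have := hG1c g (hG21 g.2) h (hG21 h.2)
      simpa [commutatorElement_def] using this)
    (ψ.comp (MonoidHom.toAdditive i2)) (by
      intro g x y hxy
      have h6 := hψi g g.2 (i2 x)
      have h7 : i2 y = ⟨(g : G) * (i2 x : K2) * (g : G)⁻¹, hK2n.conj_mem _ (i2 x).2 _⟩ := by
        refine Subtype.ext ?_
        rw [hi2]
        exact congrArg Subtype.val hxy
      change ψ (Additive.ofMul (i2 y)) = ψ (Additive.ofMul (i2 x))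
      rw [h7]; exact h6)
  refine ⟨G2, hG2f, ω, f, h1, h2, h3, h4, ?_, ?_⟩
  · -- `ω` vanishes on `K`
    have hz : ∀ a b : G2, (a : G) ∈ K2 → ω a b = 0 := by
      intro a b ha
      -- `f (a b a⁻¹ b⁻¹)` computed in two ways
      have hf1 : f 1 = 0 := by
        have := h4 1 1
        rw [one_mul, om_one_left ω h1] at this; linarith
      have hfi : ∀ g, f g⁻¹ = - f g + ω g g := by
        intro g
        have := h4 g g⁻¹
        rw [mul_inv_cancel, hf1, om_inv_right ω h2] at this; linarith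
      have hgg : ∀ g, ω g g = 0 := fun g => by have := h3 g g; linarith
      have hcm : f (b * a * b⁻¹) = f a + 2 * ω b a := by
        rw [h4, h4, hfi, hgg, h1, om_inv_right ω h2, om_inv_right ω h2, hgg, h3 a b]; ring
      have ha' : a ∈ K2.subgroupOf G2 := ha
      have hb' : b * a * b⁻¹ ∈ K2.subgroupOf G2 := by
        rw [Subgroup.mem_subgroupOf]
        exact hK2n.conj_mem _ ha b
      have e1 : f a = ψ (Additive.ofMul (i2 ⟨a, ha'⟩)) := h5 ⟨a, ha'⟩
      have e2 : f (b * a * b⁻¹) = ψ (Additive.ofMul (i2 ⟨_, hb'⟩)) := h5 ⟨_, hb'⟩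
      have e3 := hψi b b.2 (i2 ⟨a, ha'⟩)
      have e4 : i2 ⟨_, hb'⟩ = ⟨(b : G) * (i2 ⟨a, ha'⟩ : K2) * (b : G)⁻¹,
          hK2n.conj_mem _ (i2 ⟨a, ha'⟩).2 _⟩ := Subtype.ext rfl
      rw [e4, e3, ← e1] at e2
      have e5 : ω b a = 0 := by linarith
      rw [h3, e5, neg_zero]
    intro a b ha
    obtain ⟨m, hm, -, hxm⟩ := Subgroup.exists_pow_mem_of_index_ne_zero hLf.index_ne_zero
      (⟨(a : G), ha⟩ : K)
    have hp : ∀ k : ℕ, ω (a ^ k) b = k * ω a b := by
      intro k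
      induction k with
      | zero => simp [om_one_left ω h1]
      | succ k ih => rw [pow_succ, h1, ih]; push_cast; ring
    have h6 : ω (a ^ m) b = 0 := hz _ _ ⟨_, hxm, by simp⟩
    rw [hp] at h6
    exact (mul_eq_zero.1 h6).resolve_left (by exact_mod_cast hm.ne')
  · obtain ⟨x, hx⟩ : ∃ x, ψ x ≠ 0 := by
      by_contra hc
      push Not at hc
      exact hψ0 (AddMonoidHom.ext hc)
    refine ⟨⟨(Additive.toMul x : K2), hK2G2 (Additive.toMul x).2⟩, hK2K (Additive.toMul x).2, ?_⟩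
    rw [h5 ⟨⟨(Additive.toMul x : K2), hK2G2 (Additive.toMul x).2⟩, (Additive.toMul x).2⟩]
    exact hx

end Vale.Agent.P284.H731.Eig
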