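import Vale.Agent.P284.H894.V.Defs
import Mathlib.GroupTheory.Schreier
import Mathlib.GroupTheory.Solvable
import Mathlib.GroupTheory.Abelianization.Defs
import Mathlib.GroupTheory.FiniteAbelian.Basic
import Mathlib.GroupTheory.Finiteness

/-!
# P284, theorem V, block V18 (helper731): group theory

Infinite finitely generated solvable groups are virtually indicable; virtual indicability goes up from
quotients and from subgroups of finite index.
-/

open Function

noncomputable section

namespace Vale.Agent.P284.H731

open Vale.Agent.P284.H894.V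

/-- Virtual indicability goes up from a quotient. -/
theorem VirtIndicable.of_surj {G Q : Type*} [Group G] [Group Q] (f : G →* Q) (hf : Surjective f)
    (h : VirtIndicable Q) : VirtIndicable G := by
  obtain ⟨K, hK, φ, hφ⟩ := h
  refine ⟨K.comap f, ⟨?_⟩, φ.comp (f.subgroupComap K), ?_⟩
  · rw [Subgroup.index_comap_of_surjective K hf]
    exact hK.index_ne_zero
  intro z
  obtain ⟨q, hq⟩ := hφ z
  obtain ⟨g, hg⟩ := hf q
  refine ⟨⟨g, by rw [Subgroup.mem_comap, hg]; exact q.2⟩, ?_⟩
  rw [MonoidHom.comp_apply, ← hq]
  congr 1
  exact Subtype.ext hg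

/-- Virtual indicability goes up from a subgroup of finite index. -/
theorem VirtIndicable.of_sub {G : Type*} [Group G] (H : Subgroup G) (hH : H.FiniteIndex)
    (h : VirtIndicable H) : VirtIndicable G := by
  obtain ⟨K, hK, φ, hφ⟩ := h
  refine ⟨K.map H.subtype, ⟨?_⟩, φ.comp
    (K.equivMapOfInjective H.subtype H.subtype_injective).symm.toMonoidHom, ?_⟩
  · rw [Subgroup.index_map_subtype]
    exact mul_ne_zero hK.index_ne_zero hH.index_ne_zero
  · exact hφ.comp (K.equivMapOfInjective H.subtype H.subtype_injective).symm.surjective

/-- An infinite finitely generated commutative group maps onto `ℤ`. -/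
theorem exists_surj_int (A : Type*) [CommGroup A] (hfg : Group.FG A) (_hinf : Infinite A) :
    ∃ φ : A →* Multiplicative ℤ, Surjective φ := by
  have : AddGroup.FG (Additive A) := by
    rw [← GroupFG.iff_add_fg]; exact hfg
  obtain ⟨n, ι, _, p, hp, e, ⟨g⟩⟩ := AddCommGroup.equiv_free_prod_directSum_zmod (Additive A)
  rcases Nat.eq_zero_or_pos n with h0 | hpos
  · exfalso
    subst h0
    have : Finite (DirectSum ι fun i => ZMod (p i ^ e i)) := by
      have : ∀ i, NeZero (p i ^ e i) := fun i => ⟨pow_ne_zero _ (hp i).ne_zero⟩
      classical
      exact Finite.of_equiv _ (DirectSum.addEquivProd (fun i => ZMod (p i ^ e i))).symm.toEquiv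
    have : Finite (Fin 0 →₀ ℤ) := inferInstance
    have h1 : Finite (Additive A) := Finite.of_equiv _ g.symm.toEquiv
    have h2 : Finite A := h1
    exact not_finite A
  · let f : Additive A →+ ℤ :=
      (Finsupp.applyAddHom (⟨0, hpos⟩ : Fin n)).comp ((AddMonoidHom.fst _ _).comp g.toAddMonoidHom)
    have hf : Surjective f := by
      intro z
      refine ⟨g.symm (Finsupp.single ⟨0, hpos⟩ z, 0), ?_⟩
      simp [f]
    refine ⟨AddMonoidHom.toMultiplicativeRight f, ?_⟩
    intro z
    obtain ⟨a, ha⟩ := hf (Multiplicative.toAdd z)
    exact ⟨Additive.toMul a, congrArg Multiplicative.ofAdd ha⟩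

theorem map_derivedSeries_commutator {Q : Type*} [Group Q] (n : ℕ) :
    (derivedSeries (commutator Q) n).map (commutator Q).subtype ≤ derivedSeries Q (n + 1) := by
  induction n with
  | zero =>
    rw [derivedSeries_zero, derivedSeries_one, ← MonoidHom.range_eq_map, Subgroup.range_subtype]
  | succ n ih =>
    rw [derivedSeries_succ, Subgroup.map_commutator, derivedSeries_succ Q (n + 1)]
    exact Subgroup.commutator_mono ih ih

/-- Infinite finitely generated solvable groups are virtually indicable. -/
theorem virtIndicable_of_derivedSeries (n : ℕ) : ∀ (Q : Type*) [Group Q], Group.FG Q → Infinite Q →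
    derivedSeries Q n = ⊥ → VirtIndicable Q := by
  induction n with
  | zero =>
    intro Q _ _ hinf h
    exfalso
    rw [derivedSeries_zero] at h
    have := Subgroup.subsingleton_iff.1 (subsingleton_iff_bot_eq_top.1 h.symm)
    exact not_finite Q
  | succ n ih =>
    intro Q _ hfg hinf h
    by_cases hfin : Finite (Abelianization Q)
    · have hidx : (commutator Q).FiniteIndex := by
        have : Finite (Q ⧸ commutator Q) := hfin
        exact Subgroup.finiteIndex_of_finite_quotient
      refine VirtIndicable.of_sub (commutator Q) hidx ?_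
      have := hfg
      refine ih (commutator Q) inferInstance ?_ ?_
      · by_contra hcon
        rw [not_infinite_iff_finite] at hcon
        have h3 : Finite (Q ⧸ commutator Q) := hfin
        have h4 : Finite Q := Finite.of_equiv _
          (Subgroup.groupEquivQuotientProdSubgroup (s := commutator Q)).symm
        exact not_finite Q
      · have := map_derivedSeries_commutator (Q := Q) n
        rw [h, le_bot_iff] at this
        exact (Subgroup.map_eq_bot_iff_of_injective _ (Subgroup.subtype_injective _)).1 this
    · rw [not_finite_iff_infinite] at hfin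
      have := hfg
      obtain ⟨φ, hφ⟩ := exists_surj_int (Abelianization Q)
        (Group.fg_of_surjective (f := Abelianization.of (G := Q)) QuotientGroup.mk_surjective) hfin
      refine VirtIndicable.of_surj (Abelianization.of (G := Q)) (QuotientGroup.mk_surjective) ?_
      refine ⟨⊤, inferInstance, φ.comp (Subgroup.topEquiv.toMonoidHom), ?_⟩
      exact hφ.comp Subgroup.topEquiv.surjective

theorem virtIndicable_of_solvable (Q : Type*) [Group Q] (hfg : Group.FG Q) (hinf : Infinite Q)
    (h : Group.IsSolvable Q) : VirtIndicable Q := by
  obtain ⟨n, hn⟩ := h.solvable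
  exact virtIndicable_of_derivedSeries n Q hfg hinf hn

end Vale.Agent.P284.H731
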