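import Vale.Agent.P284.H409.K.Spec
import Vale.Agent.P284.H427.G3a
import Vale.Agent.P272.K.C2.Wirt

/-!
# P284, theorem K, row K6 (helper731): pigeonhole for the Monge-Ampère solutions
-/

open scoped Manifold ContDiff Topology Pointwise ComplexConjugate ComplexOrder
open Filter Set Metric MeasureTheory

noncomputable section

namespace Vale.Agent.P284.H731.K6

open Vale.Agent.P272.K Vale.Agent.P284.H248 Vale.Agent.P284.H894 Vale.Agent.P284.H894.G
  Vale.Agent.P284.H894.V Vale.Agent.P284.H894.W Vale.Agent.P284.H913.V Vale.Agent.P284.H409.A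
  Vale.Agent.P284.H409.K

/-! ### Groups -/

theorem exists_inj {Γ : Type} [Group Γ] [Group.ResiduallyFinite Γ] (T : Finset Γ) :
    ∃ N : Subgroup Γ, N.Normal ∧ N.FiniteIndex ∧ ∀ g ∈ T, ∀ h ∈ T, g⁻¹ * h ∈ N → g = h := by
  classical
  have h1 : ∀ q : Γ, ∃ N : Subgroup Γ, N.Normal ∧ N.FiniteIndex ∧ (q ∈ N → q = 1) := by
    intro q
    by_cases hq : q = 1
    · exact ⟨⊤, inferInstance, inferInstance, fun _ => hq⟩
    · obtain ⟨H, hH⟩ := Group.exists_finiteIndexNormalSubgroup_notMem q hq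
      exact ⟨H.toSubgroup, H.isNormal', H.isFiniteIndex', fun h => absurd h hH⟩
  choose N hN hF hi using h1
  refine ⟨⨅ q : T × T, N ((q.1 : Γ)⁻¹ * q.2), Subgroup.normal_iInf_normal fun q => hN _,
    Subgroup.finiteIndex_iInf fun q => hF _, ?_⟩
  intro g hg h hh hgh
  have h2 := (Subgroup.mem_iInf.1 hgh) (⟨g, hg⟩, ⟨h, hh⟩)
  exact (inv_mul_eq_one.1 (hi _ h2))

/-! ### The Hessian of `exp (φ / x)` -/

section
variable {n : ℕ} {u : Cm n → ℝ} {z : Cm n}

theorem smooth_exp (x : ℝ) (hu : ContDiffAt ℝ ∞ u z) :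
    ContDiffAt ℝ ∞ (fun y => Real.exp (u y / x)) z := by
  simp only [div_eq_mul_inv]
  exact (hu.mul contDiffAt_const).exp

theorem hess_exp {x : ℝ} (hx : 0 < x) (hu : ContDiffAt ℝ ∞ u z) (h0 : u z ≤ 0)
    {W : Matrix (Fin n) (Fin n) ℂ} (hW : W.PosDef) (hp : (W + cHess u z).PosDef) :
    (cHess (fun y => Real.exp (u y / x)) z + (((1 / x : ℝ)) : ℂ) • W).PosSemidef := by
  have hu2 : ContDiffAt ℝ 2 u z := hu.of_le (by norm_cast)
  set e : ℝ := Real.exp (u z / x) with he
  have he0 : 0 < e := Real.exp_pos _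
  have he1 : e ≤ 1 := Real.exp_le_one_iff.2 (div_nonpos_of_nonpos_of_nonneg h0 hx.le)
  set a : Cm n := fun j => dz j (fun y => (u y : ℂ)) z with ha
  have key : cHess (fun y => Real.exp (u y / x)) z + (((1 / x : ℝ)) : ℂ) • W =
      ((e / x : ℝ) : ℂ) • (W + cHess u z) + ((e / x ^ 2 : ℝ) : ℂ) • Matrix.vecMulVec a (star a) +
        (((1 - e) / x : ℝ) : ℂ) • W := by
    ext j k
    have h1 := C2.cHess_comp (ψ := fun s => Real.exp (s / x))
      (ψ₁ := fun s => Real.exp (s / x) * (1 / x)) (ψ₂ := Real.exp (u z / x) * (1 / x) * (1 / x))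
      (u := u) (z := z)
      (Filter.Eventually.of_forall fun s => by
        have := ((hasDerivAt_id s).div_const x).exp
        simpa using this)
      (by
        have := (((hasDerivAt_id (u z)).div_const x).exp).mul_const (1 / x)
        simpa using this) hu2 j k
    rw [Matrix.add_apply, h1, C2.dzb_real k (hu2.differentiableAt (by norm_num))]
    simp only [Matrix.add_apply, Matrix.smul_apply, smul_eq_mul, Matrix.vecMulVec_apply,
      Pi.star_apply, RCLike.star_def, ha]
    rw [← he]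
    push_cast
    have hx' : (x : ℂ) ≠ 0 := by exact_mod_cast hx.ne'
    field_simp
    ring
  rw [key]
  have hc : ∀ c : ℝ, 0 ≤ c → (0 : ℂ) ≤ (c : ℂ) := fun c hc => by exact_mod_cast hc
  refine ((hp.posSemidef.smul (hc _ (by positivity))).add
    ((Matrix.posSemidef_vecMulVec_self_star a).smul (hc _ (by positivity)))).add
    (hW.posSemidef.smul (hc _ ?_))
  exact div_nonneg (by linarith) hx.le

end

/-! ### The functions on the covering -/

section
variable {n : ℕ} {Γ : Type} [Group Γ]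

/-- `φ ≤ 0` smooth with `w + ∂∂̄φ > 0` -/
structure NF (C : Coc n Γ) (K : KM C) (φ : Γ → C.I → Cm n → ℝ) : Prop extends SmF C φ where
  neg : ∀ γ a, ∀ z ∈ C.Ω a, φ γ a z ≤ 0
  pos : ∀ γ a, ∀ z ∈ C.Ω a, (K.w a z + cHess (φ γ a) z).PosDef

theorem nf_zero (C : Coc n Γ) (K : KM C) : NF C K fun _ _ _ => 0 where
  smooth _ _ _ _ := contDiffAt_const
  compat _ _ _ _ _ := rfl
  neg _ _ _ _ := le_rfl
  pos γ a z hz := by
    rw [C2.cHess_const, add_zero]
    exact (K.ku a).pos z hz

theorem nf_pull {C : Coc n Γ} {K : KM C} {N : Subgroup Γ} [N.Normal]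
    {F φ : Γ ⧸ N → C.I → Cm n → ℝ} (h : MAF (qC C N) (qK K N) F φ)
    (h0 : ∀ γ a, ∀ z ∈ C.Ω a, φ γ a z ≤ 0) :
    NF C K fun γ a z => φ (QuotientGroup.mk' N γ) a z where
  smooth γ a z hz := h.smooth _ a z hz
  compat γ a b z hz := by
    have := h.compat (QuotientGroup.mk' N γ) a b z hz
    rw [map_mul]
    exact this
  neg γ a z hz := h0 _ a z hz
  pos γ a z hz := h.pos _ a z hz

theorem qpsh {C : Coc n Γ} {K : KM C} {φ : Γ → C.I → Cm n → ℝ} (h : NF C K φ) (y : Γ) {x : ℝ}
    (hx : 0 < x) : QPsh C K (1 / x) fun γ a z => Real.exp (φ (y * γ) a z / x) where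
  smooth γ a z hz := smooth_exp x (h.smooth (y * γ) a z hz)
  compat γ a b z hz := by
    rw [h.compat (y * γ) a b z hz, mul_assoc]
  nonneg γ a z hz := (Real.exp_pos _).le
  le_one γ a z hz := Real.exp_le_one_iff.2
    (div_nonpos_of_nonpos_of_nonneg (h.neg (y * γ) a z hz) hx.le)
  hess γ a z hz := hess_exp hx (h.smooth (y * γ) a z hz) (h.neg (y * γ) a z hz)
    ((K.ku a).pos z hz) (h.pos (y * γ) a z hz)

end

/-- **K6** -/
theorem k6Stmt : K6Stmt := by
  intro hKA n Γ _ _ C P K hMA S hS hexp a₀ z₀ ρ hρ hball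
  classical
  obtain ⟨B, hB1, hB⟩ := hKA n Γ C P K a₀ z₀ ρ hρ hball
  have hsub : ball z₀ ρ ⊆ C.Ω a₀ := by
    refine ((ball_subset_ball (by linarith)).trans hball).trans (ball_subset_ball ?_)
    have := C.r_pos a₀
    linarith
  -- below the level `K₀` nothing is claimed
  set K₀ : ℝ := 1 + 3 * B with hK₀
  obtain ⟨t, ht, θ, hθ0, hθ1, hK⟩ := H427.firstDrop hS hexp (2 * n) (K₀ + 1)
    (J := {φ : Γ → C.I → Cm n → ℝ // NF C K φ})
    (fun φ x g => x ≤ K₀ ∨ ∀ z ∈ ball z₀ ρ, φ.1 g a₀ z ≤ -x)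
    (fun φ x x' g hx h => by
      rcases h with h | h
      · exact Or.inl (hx.trans h)
      · exact Or.inr fun z hz => (h z hz).trans (by linarith))
    (by
      intro M T hMT
      have hT : T.Nonempty := Finset.card_pos.1 (lt_of_le_of_lt (Nat.zero_le _) hMT)
      by_cases hM : (M : ℝ) ≤ K₀
      · obtain ⟨g, hg⟩ := hT
        refine ⟨⟨_, nf_zero C K⟩, Or.inl hM, g, hg, ?_⟩
        rintro (h | h)
        · linarith
        · have := h z₀ (mem_ball_self hρ)
          simp only at this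
          linarith
      · push Not at hM
        have hM1 : (1 : ℝ) ≤ M := by linarith
        obtain ⟨N, hN, hF, hi⟩ := exists_inj T
        obtain ⟨F, hFs, hFφ⟩ := hB N hF
        have hA1 : (1 : ℝ) ≤ (M : ℝ) ^ 2 := one_le_pow₀ hM1
        obtain ⟨φ, hφ⟩ := hMA N hF (fun γ a z => (M : ℝ) ^ 2 * F γ a z)
          { smooth := fun γ a z hz => contDiffAt_const.mul (hFs.smooth γ a z hz)
            compat := fun γ a b z hz => by rw [hFs.compat γ a b z hz] }
        obtain ⟨hφ0, hφc, hφ1⟩ := hFφ ((M : ℝ) ^ 2) hA1 φ hφ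
        refine ⟨⟨_, nf_pull hφ hφ0⟩, Or.inr fun z hz => ?_, ?_⟩
        · have h1 := hφ1 z hz
          have h2 : Real.log ((M : ℝ) ^ 2) ≤ 2 * M := by
            rw [Real.log_pow]
            have := Real.log_le_self (by linarith : (0 : ℝ) ≤ M)
            push_cast
            linarith
          have h3 : B * (1 + Real.log ((M : ℝ) ^ 2)) ≤ B * (1 + 2 * M) := by gcongr
          have h4 : φ (QuotientGroup.mk' N 1) a₀ z ≤ -(M : ℝ) ^ 2 + B * (1 + 2 * M) := by
            rw [map_one]
            linarith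
          change φ (QuotientGroup.mk' N 1) a₀ z ≤ -(M : ℝ)
          nlinarith
        · by_contra hcon
          push Not at hcon
          have h1 : ∀ g ∈ T, ∀ z ∈ ball z₀ ρ, φ (QuotientGroup.mk' N g) a₀ z ≤ -1 := by
            intro g hg z hz
            rcases hcon g hg with h | h
            · linarith
            · exact (h z hz).trans (by linarith)
          have h2 : (T.image (QuotientGroup.mk' N)).card = T.card := by
            refine Finset.card_image_of_injOn ?_
            intro g hg h hh hgh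
            refine hi g hg h hh ?_
            exact QuotientGroup.eq.1 hgh
          have hfin : Finite (Γ ⧸ N) := inferInstance
          have h3 : T.card ≤ Set.ncard {γ : Γ ⧸ N | ∀ z ∈ ball z₀ ρ, φ γ a₀ z ≤ -1} := by
            rw [← h2, ← Set.ncard_coe_finset]
            refine Set.ncard_le_ncard ?_ (Set.toFinite _)
            intro q hq
            simp only [Finset.coe_image, Set.mem_image, Finset.mem_coe] at hq
            obtain ⟨g, hg, rfl⟩ := hq
            exact h1 g hg
          have h4 : ((M ^ (2 * n + 1) : ℕ) : ℝ) < B * ((M : ℝ) ^ 2) ^ n := by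
            refine lt_of_lt_of_le (Nat.cast_lt.2 hMT) ((Nat.cast_le.2 h3).trans hφc)
          have h5 : B * ((M : ℝ) ^ 2) ^ n ≤ (M : ℝ) ^ (2 * n + 1) := by
            rw [← pow_mul, pow_succ, mul_comm]
            gcongr
            linarith
          push_cast at h4
          linarith)
  choose φ y x hx hD hnD using fun j : ℕ => hK (K₀ + 1 + j)
  push Not at hnD
  have hx0 : ∀ j, K₀ < x j := fun j => by
    have := hx j
    have : (0 : ℝ) ≤ j := by positivity
    linarith
  have hK0 : 0 < K₀ := by linarith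
  have hxp : ∀ j, 0 < x j := fun j => hK0.trans (hx0 j)
  refine ⟨t, ht, Real.exp (-1), Real.exp (-θ), (Real.exp_pos _).le, ?_,
    fun j γ a z => Real.exp ((φ j).1 (y j * γ) a z / x j), fun j => 1 / x j, ?_,
    fun j => qpsh (φ j).2 (y j) (hxp j), ?_, ?_⟩
  · rw [Real.exp_lt_exp]
    linarith
  · have h1 : Tendsto (fun j : ℕ => 1 / ((j : ℝ) + 1)) atTop (𝓝 0) :=
      tendsto_one_div_add_atTop_nhds_zero_nat
    refine squeeze_zero (fun j => ?_) (fun j => ?_) h1
    · have := hxp j
      positivity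
    · have := hx j
      have : (0 : ℝ) ≤ j := by positivity
      exact one_div_le_one_div_of_le (by positivity) (by linarith)
  · intro j z hz
    change Real.exp ((φ j).1 (y j * 1) a₀ z / x j) ≤ _
    rw [mul_one, Real.exp_le_exp]
    have h1 : (φ j).1 (y j) a₀ z ≤ -x j := by
      rcases hD j with h | h
      · exact absurd h (not_le.2 (hx0 j))
      · exact h z hz
    rw [div_le_iff₀ (hxp j)]
    linarith
  · intro j
    obtain ⟨-, z, hz, h1⟩ := hnD j
    refine ⟨z, hz, ?_⟩
    change _ ≤ Real.exp ((φ j).1 (y j * t) a₀ z / x j)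
    rw [Real.exp_le_exp, le_div_iff₀ (hxp j)]
    linarith

end Vale.Agent.P284.H731.K6
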