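import Vale.Agent.P284.H731.S2
import Mathlib.Geometry.Manifold.ChartedSpace

/-!
# P284, block S2 (helper731), second part: conjugates and the group action; linearity; the covering
space is locally path connected
-/

open scoped Manifold ContDiff Topology Pointwise ComplexConjugate
open Filter Set Metric

noncomputable section

namespace Vale.Agent.P284.H731.S2

open Vale.Agent.P272.K Vale.Agent.P284.H894.V Vale.Agent.P284.H465.V17 Vale.Agent.P284.H894.G

/-- a covering space of a manifold is locally path connected -/
theorem locPath (n : ℕ) {X : Type} [TopologicalSpace X] [ChartedSpace (Cm n) X] {E : Type}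
    [TopologicalSpace E] {p : E → X} (hp : IsCoveringMap p) : LocallyPathConnectedSpace E := by
  choose f hf1 hf2 using hp.isLocalHomeomorph
  let C : ChartedSpace (Cm n) E :=
    { atlas := Set.range fun y => (f y).trans (chartAt (Cm n) (p y))
      chartAt := fun y => (f y).trans (chartAt (Cm n) (p y))
      mem_chart_source := fun y => by
        rw [OpenPartialHomeomorph.trans_source]
        refine ⟨hf1 y, ?_⟩
        show f y y ∈ (chartAt (Cm n) (p y)).source
        rw [← hf2 y]
        exact mem_chart_source _ _
      chart_mem_atlas := fun y => ⟨y, rfl⟩ }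
  exact ChartedSpace.locallyPathConnectedSpace (Cm n) E

section
variable {n : ℕ} {X : Type} [TopologicalSpace X] [ChartedSpace (Cm n) X]
  {E : Type} [TopologicalSpace E] {p : E → X} {w : Chart n X → Cm n → Matrix (Fin n) (Fin n) ℂ}
  {u v u' v' : E → ℝ} {B : ℝ}

theorem Conj.congr (h : Conj n p u v) (hu : u = u') (hv : v = v') : Conj n p u' v' := by
  subst hu; subst hv; exact h

theorem Conj.add (h : Conj n p u v) (h' : Conj n p u' v') :
    Conj n p (fun y => u y + u' y) (fun y => v y + v' y) := by
  intro y e he
  obtain ⟨f, h1, h2⟩ := h y e he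
  obtain ⟨f', h1', h2'⟩ := h' y e he
  refine ⟨fun z => f z + f' z, ?_, ?_⟩
  · filter_upwards [h1, h1'] with z a b using a.add b
  · filter_upwards [h2, h2'] with q a b
    rw [← a, ← b]
    push_cast
    ring

theorem Conj.smul (h : Conj n p u v) (c : ℝ) : Conj n p (fun y => c * u y) (fun y => c * v y) := by
  intro y e he
  obtain ⟨f, h1, h2⟩ := h y e he
  refine ⟨fun z => (c : ℂ) * f z, ?_, ?_⟩
  · filter_upwards [h1] with z a using a.const_mul _
  · filter_upwards [h2] with q a
    rw [← a]
    push_cast
    ring

/-- multiplication by `i` -/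
theorem Conj.mul_I (h : Conj n p u v) : Conj n p (fun y => -v y) u := by
  intro y e he
  obtain ⟨f, h1, h2⟩ := h y e he
  refine ⟨fun z => Complex.I * f z, ?_, ?_⟩
  · filter_upwards [h1] with z a using a.const_mul _
  · filter_upwards [h2] with q a
    rw [← a]
    push_cast
    have := Complex.I_mul_I
    linear_combination (-(v q : ℂ)) * this

theorem Conj.add_const (h : Conj n p u v) (c d : ℝ) :
    Conj n p (fun y => u y + c) (fun y => v y + d) := by
  intro y e he
  obtain ⟨f, h1, h2⟩ := h y e he
  refine ⟨fun z => f z + ((c : ℂ) + (d : ℂ) * Complex.I), ?_, ?_⟩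
  · filter_upwards [h1] with z a using a.add_const _
  · filter_upwards [h2] with q a
    rw [← a]
    push_cast
    ring

variable {Γ : Type} [Group Γ] [MulAction Γ E]

theorem Conj.comp_smul (hG : IsGalois Γ p) (h : Conj n p u v) (γ : Γ) :
    Conj n p (fun y => u (γ • y)) (fun y => v (γ • y)) := by
  intro y e he
  have he' : At e (p (γ • y)) := by rwa [p_smul hG]
  obtain ⟨f, h1, h2⟩ := h (γ • y) e he'
  rw [p_smul hG] at h1
  refine ⟨f, h1, ?_⟩
  filter_upwards [((hG.cont γ).tendsto y).eventually h2] with q hq
  rw [hq, p_smul hG]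

/-- If `γ` moves `u` by a constant, it moves the conjugate by a constant. -/
theorem conj_periods [ConnectedSpace E] (hG : IsGalois Γ p) (h : Conj n p u v) (γ : Γ) {c : ℝ}
    (hu : ∀ y, u (γ • y) = u y + c) : ∃ c' : ℝ, ∀ y, v (γ • y) = v y + c' := by
  have h1 : Conj n p u (fun y => v (γ • y)) := by
    refine ((h.comp_smul hG γ).add_const (-c) 0).congr ?_ ?_
    · funext y
      show u (γ • y) + -c = u y
      rw [hu y]
      ring
    · funext y
      exact add_zero _
  obtain ⟨y₀⟩ : Nonempty E := inferInstance
  refine ⟨v (γ • y₀) - v y₀, fun y => ?_⟩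
  have h2 := conj_unique hG.cov h1 h y y₀
  linarith

/-- **Block S2**: existence of the conjugate function. -/
theorem s2 [IsManifold 𝓘(ℂ, Cm n) ω X] [SimplyConnectedSpace E] (hp : IsCoveringMap p)
    (hu : IsPHB p w u B) : ∃ v, IsPHB p w v B ∧ Conj n p u v := by
  have : LocallyPathConnectedSpace E := locPath n hp
  obtain ⟨v, hv⟩ := exists_conj hp hu
  exact ⟨v, conj_phb hp hu hv, hv⟩

/-- If `u + i v` is holomorphic and `v` is constant then `u` is constant. -/
theorem const_of_conj [ConnectedSpace E] (hp : IsCoveringMap p) (h : Conj n p u v)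
    (hv : ∀ y y', v y = v y') (y y' : E) : u y = u y' := by
  have h1 := h.mul_I
  have h2 : Conj n p (fun y => -v y) (fun _ => (0 : ℝ)) := by
    intro y e _
    refine ⟨fun _ => ((-v y : ℝ) : ℂ), Eventually.of_forall fun _ => differentiableAt_const _, ?_⟩
    refine Eventually.of_forall fun q => ?_
    show ((-v q : ℝ) : ℂ) + ((0 : ℝ) : ℂ) * Complex.I = ((-v y : ℝ) : ℂ)
    rw [hv q y]
    simp
  have h3 := conj_unique hp h1 h2 y y'
  simpa using h3

end

end Vale.Agent.P284.H731.S2
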