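import Vale.Agent.P284.H731.T8c
import Vale.Agent.P284.H730.VP

/-!
# P284, theorem T, (c9) (helper731): the Laplacian of a section, functions on the base
-/

open scoped Manifold ContDiff Topology Pointwise ComplexConjugate ComplexOrder InnerProductSpace
open Filter Set Metric MeasureTheory

noncomputable section

namespace Vale.Agent.P284.H731.T8

open Vale.Agent.P272.K Vale.Agent.P272.K.C2 Vale.Agent.P284.H248 Vale.Agent.P284.H894
  Vale.Agent.P284.H894.V Vale.Agent.P284.H639.V Vale.Agent.P284.H639.Tw Vale.Agent.P284.H66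
  Vale.Agent.P284.H913.V Vale.Agent.P284.H66.S7 Vale.Agent.P284.H287.T Vale.Agent.P284.H359.V
  Vale.Agent.P284.H639.T6

variable {n : ℕ} {Γ : Type} [Group Γ] {C : Coc n Γ}
variable {H : Type} [NormedAddCommGroup H] [InnerProductSpace ℝ H]
variable {π : Γ →* (H ≃ₗᵢ[ℝ] H)} {b b' : Γ → H} {u v : Γ → C.I → Cm n → H}

/-! ### The Laplacian -/

/-- the Laplacian of a section, extended by `0` -/
def LH (K : KM C) (u : Γ → C.I → Cm n → H) (γ : Γ) (a : C.I) : Cm n → H :=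
  (C.Ω a).indicator (lapH (K.w a) (u γ a))

theorem LH_mem {K : KM C} {γ : Γ} {a : C.I} {z : Cm n} (hz : z ∈ C.Ω a) :
    LH K u γ a z = lapH (K.w a) (u γ a) z := indicator_of_mem hz _

/-- change of coordinates, both pieces -/
theorem sec_chg (K : KM C) (hu : Sec C π b u) (hv : Sec C π b' v) (γ : Γ) {a d : C.I} {z : Cm n}
    (hz : z ∈ C.O a d) :
    lapH (K.w a) (u γ a) z = lapH (K.w d) (u (γ * C.κ a d z) d) (C.T a d z) ∧
    grH (K.w a) (u γ a) (v γ a) z =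
      grH (K.w d) (u (γ * C.κ a d z) d) (v (γ * C.κ a d z) d) (C.T a d z) ∧
    hhH (K.w a) (u γ a) (v γ a) z =
      hhH (K.w d) (u (γ * C.κ a d z) d) (v (γ * C.κ a d z) d) (C.T a d z) :=
  chg H730.V.vpStmt (K.w a) (K.w d) _ _ _ _ (C.T a d) z (T_ev C hz)
    ((K.ku a).pos z (O_sub_Ω C hz)) ((K.ku d).pos _ (T_mem_Ω C hz)) (K.change a d z hz)
    (hu.smooth γ a z (O_sub_Ω C hz)) (hv.smooth γ a z (O_sub_Ω C hz))
    (hu.smooth _ d _ (T_mem_Ω C hz)) (hv.smooth _ d _ (T_mem_Ω C hz))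
    (sec_ev hu γ hz) (sec_ev hv γ hz)

/-- change of coordinates, piece `1` -/
theorem sec_chg1 (K : KM C) (hu : Sec C π b u) (hv : Sec C π b' v) {a d : C.I} {z : Cm n}
    (hz : z ∈ C.O a d) :
    lapH (K.w a) (u 1 a) z = π (C.κ a d z) (lapH (K.w d) (u 1 d) (C.T a d z)) ∧
    grH (K.w a) (u 1 a) (v 1 a) z = grH (K.w d) (u 1 d) (v 1 d) (C.T a d z) ∧
    hhH (K.w a) (u 1 a) (v 1 a) z = hhH (K.w d) (u 1 d) (v 1 d) (C.T a d z) := by
  have hT := T_mem_Ω C hz
  have e1 := sec_equi_ev hu (C.κ a d z) 1 hT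
  have e2 := sec_equi_ev hv (C.κ a d z) 1 hT
  rw [mul_one] at e1 e2
  have h := sec_chg K hu hv 1 hz
  rw [one_mul] at h
  rw [h.1, h.2.1, h.2.2, lapH_congr _ e1, grH_congr _ e1 e2, hhH_congr _ e1 e2, lapH_iso, grH_iso,
    hhH_iso]
  exact ⟨rfl, rfl, rfl⟩

/-- the Laplacian of a section is an equivariant section -/
theorem sec_LH (K : KM C) (hu : Sec C π b u) : Sec C π 0 (LH K u) where
  smooth γ a z hz := by
    refine (lapH_smooth (K.ku a) hz (hu.smooth γ a z hz)).congr_of_eventuallyEq ?_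
    filter_upwards [(isOpen_Ω C a).mem_nhds hz] with y hy using LH_mem hy
  compat γ a d z hz := by
    rw [LH_mem (O_sub_Ω C hz), LH_mem (T_mem_Ω C hz)]
    exact (sec_chg K hu hu γ hz).1
  equi g γ a z hz := by
    rw [LH_mem hz, LH_mem hz, lapH_congr _ (sec_equi_ev hu g γ hz), lapH_iso, Pi.zero_apply,
      add_zero]

/-! ### Functions on the base -/

theorem BD_grH (K : KM C) (hu : Sec C π b u) (hv : Sec C π b' v) :
    BD C (fun a z => grH (K.w a) (u 1 a) (v 1 a) z) where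
  cont a _ hz := (grH_smooth (K.ku a) hz (hu.smooth 1 a _ hz)
    (hv.smooth 1 a _ hz)).continuousAt.continuousWithinAt
  compat a d z hz _ _ := (sec_chg1 K hu hv hz).2.1

theorem BD_hhH (K : KM C) (hu : Sec C π b u) (hv : Sec C π b' v) :
    BD C (fun a z => hhH (K.w a) (u 1 a) (v 1 a) z) where
  cont a _ hz := (hhH_smooth (K.ku a) hz (hu.smooth 1 a _ hz)
    (hv.smooth 1 a _ hz)).continuousAt.continuousWithinAt
  compat a d z hz _ _ := (sec_chg1 K hu hv hz).2.2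

theorem BD_lapH (K : KM C) (hu : Sec C π b u) (hv : Sec C π 0 v) :
    BD C (fun a z => ⟪lapH (K.w a) (u 1 a) z, v 1 a z⟫_ℝ) :=
  BD_congr (BD_inner π (sec_LH K hu) hv) fun a z hz => by
    simp only [LH_mem hz]

theorem BD_lapH2 (K : KM C) (hu : Sec C π b u) (hv : Sec C π b' v) :
    BD C (fun a z => ⟪lapH (K.w a) (u 1 a) z, lapH (K.w a) (v 1 a) z⟫_ℝ) :=
  BD_congr (BD_inner π (sec_LH K hu) (sec_LH K hv)) fun a z hz => by
    simp only [LH_mem hz]

theorem BD_lapH_sq (K : KM C) (hu : Sec C π b u) :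
    BD C (fun a z => ‖lapH (K.w a) (u 1 a) z‖ ^ 2) :=
  BD_congr (BD_nsq π (sec_LH K hu)) fun a z hz => by
    simp only [LH_mem hz]

theorem BInt_LH (P : PU C) (K : KM C) (u : Γ → C.I → Cm n → H) (v : Γ → C.I → Cm n → H) :
    BInt P K (fun a z => ⟪LH K u 1 a z, v 1 a z⟫_ℝ) =
      BInt P K (fun a z => ⟪lapH (K.w a) (u 1 a) z, v 1 a z⟫_ℝ) :=
  BInt_congr P K fun a z hz => by
    simp only [LH_mem (V_sub_Ω C a hz)]

theorem BInt_LH2 (P : PU C) (K : KM C) (u v : Γ → C.I → Cm n → H) :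
    BInt P K (fun a z => ⟪LH K u 1 a z, LH K v 1 a z⟫_ℝ) =
      BInt P K (fun a z => ⟪lapH (K.w a) (u 1 a) z, lapH (K.w a) (v 1 a) z⟫_ℝ) :=
  BInt_congr P K fun a z hz => by
    simp only [LH_mem (V_sub_Ω C a hz)]

end Vale.Agent.P284.H731.T8
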