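import Vale.Agent.P284.H894.V.Spec
import Vale.Agent.P284.H731.Grp
import Vale.Agent.P260.H573.BlockF
import Mathlib.LinearAlgebra.Matrix.ToLin
import Mathlib.LinearAlgebra.Dimension.Free

/-!
# P284, theorem V, block V18 (helper731): a finitely generated amenable group with an infinite
finite-dimensional real linear image is virtually indicable.
-/

open Function
open scoped Pointwise

noncomputable section

namespace Vale.Agent.P284.H731.V

open Vale.Agent.P284.H894.V Vale.Agent.P284.H731

theorem folner_conv {G : Type} [Group G] (h : Vale.Agent.P284.H894.G.Folner G) :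
    Vale.Agent.P260.Folner G := by
  classical
  intro E ε hε
  obtain ⟨F, hF, hne, h1⟩ := h (↑E) E.finite_toSet ε hε
  refine ⟨hF.toFinset, by simpa using hne, fun g hg => ?_⟩
  have h2 := h1 g (by exact_mod_cast hg)
  have h3 : ((g • F) \ F) =
      (((hF.toFinset.image fun x => g * x) \ hF.toFinset : Finset G) : Set G) := by
    ext x
    simp [Set.mem_smul_set_iff_inv_smul_mem]
  rw [h3, Set.ncard_coe_finset] at h2
  have h5 : F.ncard = hF.toFinset.card := by
    rw [Set.ncard_eq_toFinset_card F hF]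
  rw [h5] at h2
  convert h2

theorem infinite_map {Γ Q : Type*} [Group Γ] [Group Q] (f : Γ →* Q) (H : Subgroup Γ)
    (hH : H.FiniteIndex) (hinf : (Set.range f).Infinite) : Infinite (H.map f) := by
  by_contra hcon
  rw [not_infinite_iff_finite] at hcon
  have hfH : ((H.map f : Subgroup Q) : Set Q).Finite := Set.toFinite _
  have : Finite (Γ ⧸ H) := Subgroup.finite_quotient_of_finiteIndex
  refine hinf ?_
  have hU : (⋃ q : Γ ⧸ H, (fun x => f q.out * x) '' ((H.map f : Subgroup Q) : Set Q)).Finite :=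
    Set.finite_iUnion fun q => hfH.image _
  refine hU.subset ?_
  rintro _ ⟨g, rfl⟩
  rw [Set.mem_iUnion]
  obtain ⟨h, hh⟩ := QuotientGroup.mk_out_eq_mul H g
  refine ⟨(g : Γ ⧸ H), f (h : Γ)⁻¹, ⟨(h : Γ)⁻¹, H.inv_mem h.2, rfl⟩, ?_⟩
  simp only
  rw [hh, ← map_mul]
  congr 1
  group

theorem v18_aux {Γ : Type} [Group Γ] (hfg : Group.FG Γ) (hF : Vale.Agent.P284.H894.G.Folner Γ)
    (m : ℕ) (f : Γ →* Matrix.GeneralLinearGroup (Fin m) ℝ) (hinf : (Set.range f).Infinite) :
    VirtIndicable Γ := by
  obtain ⟨H, hH, hsol⟩ := Vale.Agent.P260.blockF_lit ℝ m Γ hfg (folner_conv hF) f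
  have hHfg : Group.FG H := by
    have := hfg
    infer_instance
  have hsurj : Surjective (f.subgroupMap H) := f.subgroupMap_surjective H
  have hQfg : Group.FG (H.map f) := by
    have := hHfg
    exact Group.fg_of_surjective hsurj
  exact VirtIndicable.of_sub H hH (VirtIndicable.of_surj _ hsurj
    (virtIndicable_of_solvable _ hQfg (infinite_map f H hH hinf) hsol))

theorem v18Stmt : V18Stmt := by
  intro Γ _ hfg hF V _ _ _ ρ hinf
  classical
  let b := Module.finBasis ℝ V
  let T := LinearMap.toMatrixAlgEquiv b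
  let f : Γ →* Matrix.GeneralLinearGroup (Fin (Module.finrank ℝ V)) ℝ :=
    (Units.map (T : (V →ₗ[ℝ] V) →* Matrix (Fin (Module.finrank ℝ V))
      (Fin (Module.finrank ℝ V)) ℝ)).comp ρ.toHomUnits
  have hf : ∀ g, ρ g = T.symm (f g).1 := by
    intro g
    have : (f g).1 = T (ρ g) := rfl
    rw [this, AlgEquiv.symm_apply_apply]
  refine v18_aux hfg hF _ f fun hfin => hinf ?_
  refine (hfin.image fun A : Matrix.GeneralLinearGroup (Fin (Module.finrank ℝ V)) ℝ =>
    T.symm A.1).subset ?_
  rintro _ ⟨g, rfl⟩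
  exact ⟨f g, ⟨g, rfl⟩, (hf g).symm⟩

end Vale.Agent.P284.H731.V
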